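import Vale.Agent.Lib.P327.Iter

/-!
A homeomorphism of Cantor space with uniform tail dependence in both directions which
preserves Turing reducibility satisfies `F A ≡ A` on a dense G-delta set of reals.
-/

namespace Vale.Agent.Lib.P327

open Part Nat.Partrec

/-- uniform tail dependence -/
def UE (K : (ℕ → Bool) → (ℕ → Bool)) : Prop :=
  ∀ a, ∃ b, ∀ X Y : ℕ → Bool, (∀ n, a ≤ n → X n = Y n) → ∀ n, b ≤ n → K X n = K Y n

theorem UE.comp {K₁ K₂ : (ℕ → Bool) → (ℕ → Bool)} (h₁ : UE K₁) (h₂ : UE K₂) :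
    UE (fun X => K₂ (K₁ X)) := by
  intro a
  obtain ⟨b, hb⟩ := h₁ a
  obtain ⟨c, hc⟩ := h₂ b
  exact ⟨c, fun X Y h => hc _ _ (hb X Y h)⟩

/-- the shift permutation `… → 5 → 3 → 1 → 0 → 2 → 4 → …` of the naturals -/
def gsh (n : ℕ) : ℕ := if n % 2 = 0 then n + 2 else if n = 1 then 0 else n - 2

/-- inverse of the shift permutation -/
def gsh' (m : ℕ) : ℕ := if m % 2 = 0 then (if m = 0 then 1 else m - 2) else m + 2

theorem gsh_gsh' (m : ℕ) : gsh (gsh' m) = m := by
  unfold gsh'
  by_cases h0 : m % 2 = 0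
  · by_cases h1 : m = 0
    · subst h1
      rfl
    · rw [if_pos h0, if_neg h1]
      unfold gsh
      have h2 : (m - 2) % 2 = 0 := by omega
      rw [if_pos h2]
      omega
  · rw [if_neg h0]
    unfold gsh
    have h2 : ¬ (m + 2) % 2 = 0 := by omega
    have h3 : ¬ (m + 2 = 1) := by omega
    rw [if_neg h2, if_neg h3]
    omega

theorem gsh'_gsh (n : ℕ) : gsh' (gsh n) = n := by
  unfold gsh
  by_cases h0 : n % 2 = 0
  · rw [if_pos h0]
    unfold gsh'
    have h2 : (n + 2) % 2 = 0 := by omega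
    have h3 : ¬ (n + 2 = 0) := by omega
    rw [if_pos h2, if_neg h3]
    omega
  · by_cases h1 : n = 1
    · subst h1
      rfl
    · rw [if_neg h0, if_neg h1]
      unfold gsh'
      have h2 : ¬ (n - 2) % 2 = 0 := by omega
      rw [if_neg h2]
      omega

theorem gsh_iter (k : ℕ) : gsh^[k] 0 = 2 * k := by
  induction k with
  | zero => rfl
  | succ k ih =>
    rw [Function.iterate_succ_apply', ih]
    unfold gsh
    split_ifs <;> omega

theorem gsh'_iter (k : ℕ) : gsh'^[k + 1] 0 = 2 * k + 1 := by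
  induction k with
  | zero => rfl
  | succ k ih =>
    rw [Function.iterate_succ_apply', ih]
    unfold gsh'
    split_ifs <;> omega

theorem gsh_computable : Computable gsh := by
  apply Primrec.to_comp
  have hmod : PrimrecPred (fun n : ℕ => n % 2 = 0) :=
    Primrec.eq.comp (Primrec.nat_mod.comp Primrec.id (Primrec.const 2)) (Primrec.const 0)
  have h1 : PrimrecPred (fun n : ℕ => n = 1) := Primrec.eq.comp Primrec.id (Primrec.const 1)
  exact Primrec.ite hmod (Primrec.nat_add.comp Primrec.id (Primrec.const 2))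
    (Primrec.ite h1 (Primrec.const 0) (Primrec.nat_sub.comp Primrec.id (Primrec.const 2)))

theorem gsh'_computable : Computable gsh' := by
  apply Primrec.to_comp
  have hmod : PrimrecPred (fun n : ℕ => n % 2 = 0) :=
    Primrec.eq.comp (Primrec.nat_mod.comp Primrec.id (Primrec.const 2)) (Primrec.const 0)
  have h0 : PrimrecPred (fun n : ℕ => n = 0) := Primrec.eq.comp Primrec.id (Primrec.const 0)
  exact Primrec.ite hmod
    (Primrec.ite h0 (Primrec.const 1) (Primrec.nat_sub.comp Primrec.id (Primrec.const 2)))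
    (Primrec.nat_add.comp Primrec.id (Primrec.const 2))

/-- the coordinate shift as a homeomorphism of Cantor space -/
def shiftH : (ℕ → Bool) ≃ₜ (ℕ → Bool) where
  toFun A := fun n => A (gsh n)
  invFun A := fun n => A (gsh' n)
  left_inv A := by
    funext n
    simp [gsh_gsh']
  right_inv A := by
    funext n
    simp [gsh'_gsh]
  continuous_toFun := continuous_pi fun n => continuous_apply (gsh n)
  continuous_invFun := continuous_pi fun n => continuous_apply (gsh' n)

theorem shiftH_apply (A : ℕ → Bool) (n : ℕ) : shiftH A n = A (gsh n) := rfl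

theorem shiftH_symm_apply (A : ℕ → Bool) (n : ℕ) : shiftH.symm A n = A (gsh' n) := rfl

theorem ue_shiftH : UE shiftH := by
  intro a
  refine ⟨a + 2, fun X Y h n hn => ?_⟩
  rw [shiftH_apply, shiftH_apply]
  apply h
  unfold gsh
  split_ifs <;> omega

theorem ue_shiftH_symm : UE shiftH.symm := by
  intro a
  refine ⟨a + 2, fun X Y h n hn => ?_⟩
  rw [shiftH_symm_apply, shiftH_symm_apply]
  apply h
  unfold gsh'
  split_ifs <;> omega

theorem shiftH_le (A : ℕ → Bool) : Nat.RecursiveIn {chi A} (chi (shiftH A)) :=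
  recIn_comp (recIn_chi A) (recIn_of_computable gsh_computable)

theorem shiftH_symm_le (A : ℕ → Bool) : Nat.RecursiveIn {chi A} (chi (shiftH.symm A)) :=
  recIn_comp (recIn_chi A) (recIn_of_computable gsh'_computable)

/-- Orbit identity behind the whole argument. -/
theorem orbit_identity (F : (ℕ → Bool) ≃ₜ (ℕ → Bool)) (S : (ℕ → Bool) ≃ₜ (ℕ → Bool))
    (g : ℕ → ℕ) (hS : ∀ A n, S A n = A (g n)) (B : ℕ → Bool) :
    ∀ k : ℕ, ∀ n, F.symm (((F.symm.trans S).trans F)^[k] B) n = F.symm B (g^[k] n) := by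
  intro k
  induction k with
  | zero => intro n; rfl
  | succ k ih =>
    intro n
    rw [Function.iterate_succ_apply', Function.iterate_succ_apply]
    have : F.symm (((F.symm.trans S).trans F) (((F.symm.trans S).trans F)^[k] B))
        = S (F.symm (((F.symm.trans S).trans F)^[k] B)) := by
      simp
    rw [this, hS, ih]

theorem inv_le_on_comeager (F : (ℕ → Bool) ≃ₜ (ℕ → Bool)) (hF : UE F) (hF' : UE F.symm)
    (hT : ∀ A B : ℕ → Bool, Nat.RecursiveIn {chi B} (chi A) →
      Nat.RecursiveIn {chi (F B)} (chi (F A))) :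
    ∃ G : ℕ → Set (ℕ → Bool), (∀ n, IsOpen (G n)) ∧ (∀ n, Dense (G n)) ∧
      ∀ B, (∀ n, B ∈ G n) → Nat.RecursiveIn {chi B} (chi (F.symm B)) := by
  set H : (ℕ → Bool) ≃ₜ (ℕ → Bool) := (F.symm.trans shiftH).trans F with hH
  set H' : (ℕ → Bool) ≃ₜ (ℕ → Bool) := (F.symm.trans shiftH.symm).trans F with hH'
  have hHue : UE H := (hF'.comp ue_shiftH).comp hF
  have hH'ue : UE H' := (hF'.comp ue_shiftH_symm).comp hF
  have hHred : ∀ B, Nat.RecursiveIn {chi B} (chi (H B)) := by
    intro B
    have h := hT (shiftH (F.symm B)) (F.symm B) (shiftH_le _)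
    rw [F.apply_symm_apply] at h
    exact h
  have hH'red : ∀ B, Nat.RecursiveIn {chi B} (chi (H' B)) := by
    intro B
    have h := hT (shiftH.symm (F.symm B)) (F.symm B) (shiftH_symm_le _)
    rw [F.apply_symm_apply] at h
    exact h
  obtain ⟨ψH, hψH⟩ := weak_of_tail H H.continuous hHue hHred
  obtain ⟨ψH', hψH'⟩ := weak_of_tail H' H'.continuous hH'ue hH'red
  obtain ⟨m₀, θ, hθ, hθv⟩ := exists_table (fun Y => F.symm Y 0)
    ((continuous_apply 0).comp F.symm.continuous)
  obtain ⟨ψ₁, hψ₁p, hψ₁c, hψ₁d⟩ := exists_iter_functional H hψH θ hθ m₀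
  obtain ⟨ψ₂, hψ₂p, hψ₂c, hψ₂d⟩ := exists_iter_functional H' hψH' θ hθ m₀
  set ψ : List Bool → ℕ → Part ℕ := fun τ n =>
    cond (decide (n % 2 = 0)) (ψ₁ τ (n / 2)) (ψ₂ τ ((n + 1) / 2)) with hψ
  have hψp : Partrec₂ ψ := by
    have hc : Computable (fun p : List Bool × ℕ => decide (p.2 % 2 = 0)) :=
      (Primrec.eq.comp (Primrec.nat_mod.comp Primrec.snd (Primrec.const 2))
        (Primrec.const 0)).decide.to_comp
    have h1 : Computable (fun p : List Bool × ℕ => p.2 / 2) :=
      (Primrec.nat_div.comp Primrec.snd (Primrec.const 2)).to_comp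
    have h2 : Computable (fun p : List Bool × ℕ => (p.2 + 1) / 2) :=
      (Primrec.nat_div.comp (Primrec.succ.comp Primrec.snd) (Primrec.const 2)).to_comp
    have h3 := Partrec₂.comp hψ₁p Computable.fst h1
    have h4 := Partrec₂.comp hψ₂p Computable.fst h2
    have h5 := Partrec.cond hc h3 h4
    exact h5
  have hcorr : ∀ B u n v, v ∈ ψ (pre B u) n → v = (F.symm B n).toNat := by
    intro B u n v hv
    simp only [hψ] at hv
    by_cases hn : n % 2 = 0
    · rw [decide_eq_true hn, cond_true] at hv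
      rw [hψ₁c B u _ v hv, hθv]
      have h1 := orbit_identity F shiftH gsh shiftH_apply B (n / 2) 0
      rw [gsh_iter] at h1
      have h2 : 2 * (n / 2) = n := by omega
      rw [h2] at h1
      show (F.symm (H^[n / 2] B) 0).toNat = _
      rw [hH, h1]
    · rw [decide_eq_false hn, cond_false] at hv
      rw [hψ₂c B u _ v hv, hθv]
      obtain ⟨k, hk⟩ : ∃ k, (n + 1) / 2 = k + 1 := ⟨(n + 1) / 2 - 1, by omega⟩
      have h1 := orbit_identity F shiftH.symm gsh' shiftH_symm_apply B (k + 1) 0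
      rw [gsh'_iter] at h1
      have h2 : 2 * k + 1 = n := by omega
      rw [h2] at h1
      show (F.symm (H'^[(n + 1) / 2] B) 0).toNat = _
      rw [hk, hH', h1]
  refine ⟨fun n => {B | ∃ u, (ψ (pre B u) n).Dom}, fun n => isOpen_exists_pre (fun τ => (ψ τ n).Dom), ?_, ?_⟩
  · intro n
    by_cases hn : n % 2 = 0
    · refine (hψ₁d (n / 2)).mono ?_
      rintro B ⟨u, hu⟩
      refine ⟨u, ?_⟩
      simp only [hψ]
      rw [decide_eq_true hn, cond_true]
      exact hu
    · refine (hψ₂d ((n + 1) / 2)).mono ?_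
      rintro B ⟨u, hu⟩
      refine ⟨u, ?_⟩
      simp only [hψ]
      rw [decide_eq_false hn, cond_false]
      exact hu
  · intro B hB
    refine reducible_of_partrec ψ hψp B (F.symm B) ?_ (fun n u v => hcorr B u n v)
    intro n
    obtain ⟨u, hu⟩ := hB n
    obtain ⟨v, hv⟩ := Part.dom_iff_mem.1 hu
    refine ⟨u, ?_⟩
    rw [← hcorr B u n v hv]
    exact hv

/-- The induced map on degrees is the identity on a dense G-delta set of reals. -/
theorem fixed_on_comeager (F : (ℕ → Bool) ≃ₜ (ℕ → Bool)) (hF : UE F) (hF' : UE F.symm)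
    (hT : ∀ A B : ℕ → Bool, Nat.RecursiveIn {chi B} (chi A) ↔
      Nat.RecursiveIn {chi (F B)} (chi (F A))) :
    ∃ G : ℕ → Set (ℕ → Bool), (∀ n, IsOpen (G n)) ∧ (∀ n, Dense (G n)) ∧
      ∀ A, (∀ n, A ∈ G n) →
        Nat.RecursiveIn {chi A} (chi (F A)) ∧ Nat.RecursiveIn {chi (F A)} (chi A) := by
  obtain ⟨G₁, hG₁o, hG₁d, hG₁⟩ := inv_le_on_comeager F hF hF' (fun A B h => (hT A B).1 h)
  have hT' : ∀ A B : ℕ → Bool, Nat.RecursiveIn {chi B} (chi A) →
      Nat.RecursiveIn {chi (F.symm B)} (chi (F.symm A)) := by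
    intro A B h
    apply (hT (F.symm A) (F.symm B)).2
    rw [F.apply_symm_apply, F.apply_symm_apply]
    exact h
  obtain ⟨G₂, hG₂o, hG₂d, hG₂⟩ := inv_le_on_comeager F.symm hF' hF hT'
  refine ⟨fun n => if n % 2 = 0 then G₂ (n / 2) else F ⁻¹' (G₁ (n / 2)), ?_, ?_, ?_⟩
  · intro n
    by_cases hn : n % 2 = 0
    · simp only [hn, if_true]
      exact hG₂o _
    · simp only [hn, if_false]
      exact (hG₁o _).preimage F.continuous
  · intro n
    by_cases hn : n % 2 = 0
    · simp only [hn, if_true]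
      exact hG₂d _
    · simp only [hn, if_false]
      exact (hG₁d _).preimage F.isOpenMap
  · intro A hA
    constructor
    · have h := hG₂ A (fun k => by
        have := hA (2 * k)
        simpa using this)
      simpa using h
    · have h := hG₁ (F A) (fun k => by
        have := hA (2 * k + 1)
        have e1 : (2 * k + 1) % 2 ≠ 0 := by omega
        have e2 : (2 * k + 1) / 2 = k := by omega
        simp only [e1, if_false, e2] at this
        exact this)
      simpa using h

end Vale.Agent.Lib.P327
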