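import Vale.Agent.Lib.P327.Weak

/-!
A continuous map with uniform tail dependence and `K B ≤ B` for every `B` has a global weak
functional.
-/

namespace Vale.Agent.Lib.P327

open Part Nat.Partrec

theorem exists_modulus_bit (f : (ℕ → Bool) → Bool) (hf : Continuous f) :
    ∃ M, ∀ X Y : ℕ → Bool, (∀ i, i < M → X i = Y i) → f X = f Y := by
  have hex : ∀ B : ℕ → Bool, ∃ u, cyl B u ⊆ f ⁻¹' {f B} :=
    fun B => exists_cyl_subset ((isOpen_discrete _).preimage hf) rfl
  choose u hu using hex
  obtain ⟨t, ht⟩ := isCompact_univ.elim_finite_subcover (fun B => cyl B (u B))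
    (fun B => isOpen_cyl _ _) (fun B _ => Set.mem_iUnion.2 ⟨B, mem_cyl_self _ _⟩)
  refine ⟨t.sup u, fun X Y hXY => ?_⟩
  have hX := ht (Set.mem_univ X)
  simp only [Set.mem_iUnion] at hX
  obtain ⟨B, hBt, hXB⟩ := hX
  have hYB : Y ∈ cyl B (u B) := by
    intro i hi
    rw [← hXY i (lt_of_lt_of_le hi (Finset.le_sup hBt))]
    exact hXB i hi
  have h1 : f X = f B := hu B hXB
  have h2 : f Y = f B := hu B hYB
  rw [h1, h2]

theorem exists_modulus (K : (ℕ → Bool) → (ℕ → Bool)) (hK : Continuous K) (n₀ : ℕ) :
    ∃ M, ∀ X Y : ℕ → Bool, (∀ i, i < M → X i = Y i) → ∀ n, n < n₀ → K X n = K Y n := by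
  induction n₀ with
  | zero => exact ⟨0, fun X Y _ n hn => absurd hn (Nat.not_lt_zero n)⟩
  | succ n₀ ih =>
    obtain ⟨M₁, h₁⟩ := ih
    obtain ⟨M₂, h₂⟩ := exists_modulus_bit (fun B => K B n₀) ((continuous_apply n₀).comp hK)
    refine ⟨max M₁ M₂, fun X Y hXY n hn => ?_⟩
    rcases Nat.lt_succ_iff_lt_or_eq.1 hn with hlt | rfl
    · exact h₁ X Y (fun i hi => hXY i (lt_of_lt_of_le hi (le_max_left _ _))) n hlt
    · exact h₂ X Y (fun i hi => hXY i (lt_of_lt_of_le hi (le_max_right _ _)))

theorem primrec_of_finite_support {α : Type} [Primcodable α] [DecidableEq α] (S : Finset α) :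
    ∀ f : α → ℕ, (∀ a, a ∉ S → f a = 0) → Primrec f := by
  induction S using Finset.induction_on with
  | empty =>
    intro f hf
    have : f = fun _ => 0 := funext fun a => hf a (Finset.notMem_empty a)
    rw [this]
    exact Primrec.const 0
  | insert a S _ ih =>
    intro f hf
    have h1 : Primrec (fun x => if x = a then 0 else f x) := by
      apply ih
      intro x hx
      by_cases hxa : x = a
      · simp [hxa]
      · simp only [hxa, if_false]
        exact hf x (by simp [hxa, hx])
    have h2 : Primrec (fun x => if x = a then f a else (if x = a then 0 else f x)) :=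
      Primrec.ite (Primrec.eq.comp Primrec.id (Primrec.const a)) (Primrec.const (f a)) h1
    refine h2.of_eq fun x => ?_
    by_cases hxa : x = a
    · simp [hxa]
    · simp [hxa]

/-- extension of a string by `false` -/
def ext (ρ : List Bool) : ℕ → Bool := fun i => ρ.getD i false

theorem ofFn_ext (ρ : List Bool) (M : ℕ) (h : ρ.length = M) :
    List.ofFn (fun i : Fin M => ext ρ i) = ρ := by
  subst h
  apply List.ext_getElem
  · simp
  · intro i h1 h2
    simp [ext]

theorem ext_pre_take (B : ℕ → Bool) (u M : ℕ) (hM : M ≤ u) (i : ℕ) (hi : i < M) :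
    ext ((pre B u).take M) i = B i := by
  unfold ext
  rw [pre_take, min_eq_left hM]
  rw [List.getD_eq_getElem?_getD, pre_getElem?]
  simp [hi]

theorem weak_of_tail (K : (ℕ → Bool) → (ℕ → Bool)) (hK : Continuous K)
    (hue : ∀ a, ∃ b, ∀ X Y : ℕ → Bool, (∀ n, a ≤ n → X n = Y n) → ∀ n, b ≤ n → K X n = K Y n)
    (hred : ∀ B, Nat.RecursiveIn {chi B} (chi (K B))) : ∃ ψ, IsWeak ψ K := by
  obtain ⟨c, B₀, L, hcorr, hdense⟩ := exists_local_code K hK hred
  obtain ⟨n₀, hn₀⟩ := hue L
  obtain ⟨M, hM⟩ := exists_modulus K hK n₀
  set T : List Bool × ℕ → ℕ := fun p =>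
    if p.1.length = M ∧ p.2 < n₀ then (K (ext p.1) p.2).toNat else 0 with hT
  have hTprim : Primrec T := by
    apply primrec_of_finite_support
      (((Finset.univ : Finset (Fin M → Bool)).image List.ofFn) ×ˢ Finset.range n₀)
    rintro ⟨ρ, n⟩ hp
    simp only [hT]
    rw [if_neg]
    rintro ⟨h1, h2⟩
    apply hp
    simp only [Finset.mem_product, Finset.mem_image, Finset.mem_univ, true_and, Finset.mem_range]
    exact ⟨⟨fun i => ext ρ i, ofFn_ext ρ M h1⟩, h2⟩
  set σ := pre B₀ L with hσ
  set ψ : List Bool → ℕ → Part ℕ := fun τ n =>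
    cond (decide (n < n₀))
      (cond (decide (M ≤ τ.length)) (Part.some (T (τ.take M, n))) Part.none)
      (cond (decide (L ≤ τ.length)) (c.eval (sOr (σ ++ τ.drop L)) n) Part.none) with hψ
  have hpart : Partrec₂ ψ := by
    have hc1 : Computable (fun p : List Bool × ℕ => decide (p.2 < n₀)) :=
      (Primrec.nat_lt.comp Primrec.snd (Primrec.const n₀)).decide.to_comp
    have hc2 : Computable (fun p : List Bool × ℕ => decide (M ≤ p.1.length)) :=
      (Primrec.nat_le.comp (Primrec.const M) (Primrec.list_length.comp Primrec.fst)).decide.to_comp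
    have hc3 : Computable (fun p : List Bool × ℕ => decide (L ≤ p.1.length)) :=
      (Primrec.nat_le.comp (Primrec.const L) (Primrec.list_length.comp Primrec.fst)).decide.to_comp
    have hf1 : Partrec (fun p : List Bool × ℕ => (Part.some (T (p.1.take M, p.2)) : Part ℕ)) := by
      have : Computable (fun p : List Bool × ℕ => T (p.1.take M, p.2)) :=
        hTprim.to_comp.comp (Computable.pair
          ((Primrec.list_take.to_comp).comp (Computable.const M) Computable.fst) Computable.snd)
      exact this.partrec
    have hf2 : Partrec (fun p : List Bool × ℕ => c.eval (sOr (σ ++ p.1.drop L)) p.2) := by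
      refine Partrec₂.comp (OC.eval_sOr_partrec c) ?_ Computable.snd
      exact (Primrec.list_append.to_comp).comp (Computable.const σ)
        ((Primrec.list_drop.to_comp).comp (Computable.const L) Computable.fst)
    exact Partrec.cond hc1 (Partrec.cond hc2 hf1 Partrec.none) (Partrec.cond hc3 hf2 Partrec.none)
  refine ⟨ψ, hpart, ?_, ?_⟩
  · intro B u n v hv
    simp only [hψ] at hv
    by_cases hn : n < n₀
    · rw [decide_eq_true hn, cond_true] at hv
      by_cases hu : M ≤ (pre B u).length
      · rw [decide_eq_true hu, cond_true] at hv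
        have hv' : v = T ((pre B u).take M, n) := Part.mem_some_iff.1 hv
        rw [hv']
        simp only [hT]
        have hlen : ((pre B u).take M).length = M := by
          rw [List.length_take]
          exact min_eq_left hu
        rw [if_pos ⟨hlen, hn⟩]
        congr 1
        apply hM _ _ _ n hn
        intro i hi
        exact ext_pre_take B u M (by simpa using hu) i hi
      · rw [decide_eq_false hu, cond_false] at hv
        exact absurd hv (Part.notMem_none _)
    · rw [decide_eq_false hn, cond_false] at hv
      by_cases hu : L ≤ (pre B u).length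
      · rw [decide_eq_true hu, cond_true] at hv
        have hu' : L ≤ u := by simpa using hu
        rw [hσ, pre_splice B₀ B L u hu'] at hv
        have hv2 : v ∈ c.eval (chi (splice B₀ B L)) n := (eval_chi_iff c _ n v).2 ⟨u, hv⟩
        have hmem : splice B₀ B L ∈ cyl B₀ L := by
          intro i hi
          simp [splice, hi]
        rw [hcorr _ hmem n v hv2]
        congr 1
        apply hn₀ _ _ _ n (not_lt.1 hn)
        intro i hi
        simp [splice, not_lt.2 hi]
      · rw [decide_eq_false hu, cond_false] at hv
        exact absurd hv (Part.notMem_none _)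
  · intro n
    by_cases hn : n < n₀
    · have : {B : ℕ → Bool | ∃ u, (ψ (pre B u) n).Dom} = Set.univ := by
        apply Set.eq_univ_of_forall
        intro B
        refine ⟨M, ?_⟩
        simp only [hψ]
        rw [decide_eq_true hn, cond_true, decide_eq_true (by simp : M ≤ (pre B M).length),
          cond_true]
        trivial
      rw [this]
      exact dense_univ
    · rw [dense_iff_inter_open]
      intro V hV ⟨B₁, hB₁⟩
      obtain ⟨L₁', hL₁'⟩ := exists_cyl_subset hV hB₁
      set L₁ := max L₁' L with hL₁
      have hL₁V : cyl B₁ L₁ ⊆ V := (cyl_mono B₁ (le_max_left _ _)).trans hL₁'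
      have hLL : L ≤ L₁ := le_max_right _ _
      set B₁' := splice B₀ B₁ L with hB₁'
      have hB₁'c : B₁' ∈ cyl B₀ L := by
        intro i hi
        simp [hB₁', splice, hi]
      obtain ⟨B', ⟨hB'1, hB'2⟩, hB'3⟩ := hdense (cyl B₁' L₁) (isOpen_cyl _ _)
        ⟨B₁', mem_cyl_self _ _, hB₁'c⟩
      obtain ⟨u₀, hu₀⟩ := (eval_chi_iff c B' n _).1 (hB'3 n)
      set u' := max u₀ L₁ with hu'
      have hu'v : (K B' n).toNat ∈ c.eval (sOr (pre B' u')) n :=
        eval_pre_mono c B' (le_max_left _ _) n _ hu₀
      set B := splice B₁ B' L with hB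
      have hBV : B ∈ V := by
        apply hL₁V
        intro i hi
        by_cases hiL : i < L
        · simp [hB, splice, hiL]
        · simp only [hB, splice, hiL, if_false]
          rw [hB'1 i hi]
          simp [hB₁', splice, hiL]
      have hsp : splice B₀ B L = B' := by
        funext i
        by_cases hiL : i < L
        · simp only [splice, hiL, if_true]
          exact (hB'2 i hiL).symm
        · simp [hB, splice, hiL]
      refine ⟨B, hBV, u', ?_⟩
      simp only [hψ]
      have hLu : L ≤ (pre B u').length := by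
        simp only [pre_length]
        exact hLL.trans (le_max_right _ _)
      rw [decide_eq_false hn, cond_false, decide_eq_true hLu, cond_true, hσ,
        pre_splice B₀ B L u' (by simpa using hLu), hsp]
      exact Part.dom_iff_mem.2 ⟨_, hu'v⟩

end Vale.Agent.Lib.P327
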