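import Vale.Agent.Lib.P327.Global

/-!
Uniform iteration of a weak functional along the orbit of a homeomorphism, via Kleene's
second recursion theorem.
-/

namespace Vale.Agent.Lib.P327

open Part Nat.Partrec

/-- read `U` bits of level `k` with fuel `s` through the code `c` -/
def rb (c : Code) (s : ℕ) (τ : List Bool) (k U : ℕ) : Option (List Bool) :=
  if ∀ j, j < U → (Code.evaln s c (Encodable.encode (τ, k, j))).isSome = true then
    Option.some ((List.range U).map fun j =>
      decide (Code.evaln s c (Encodable.encode (τ, k, j)) = Option.some 1))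
  else Option.none

theorem evaln5_primrec :
    Primrec (fun p : (Code × ℕ × List Bool × ℕ × ℕ) × ℕ =>
      Code.evaln p.1.2.1 p.1.1 (Encodable.encode (p.1.2.2.1, p.1.2.2.2.1, p.2))) := by
  have h3 : Primrec (fun p : (Code × ℕ × List Bool × ℕ × ℕ) × ℕ =>
      ((p.1.2.1, p.1.1), Encodable.encode (p.1.2.2.1, p.1.2.2.2.1, p.2))) := by
    refine Primrec.pair (Primrec.pair ?_ ?_) ?_
    · exact Primrec.fst.comp (Primrec.snd.comp Primrec.fst)
    · exact Primrec.fst.comp Primrec.fst
    · refine Primrec.encode.comp (Primrec.pair ?_ (Primrec.pair ?_ Primrec.snd))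
      · exact Primrec.fst.comp (Primrec.snd.comp (Primrec.snd.comp Primrec.fst))
      · exact Primrec.fst.comp (Primrec.snd.comp (Primrec.snd.comp (Primrec.snd.comp Primrec.fst)))
  exact Code.primrec_evaln.comp h3

theorem rb_primrec :
    Primrec (fun a : Code × ℕ × List Bool × ℕ × ℕ => rb a.1 a.2.1 a.2.2.1 a.2.2.2.1 a.2.2.2.2) := by
  have hR : PrimrecRel (fun (j : ℕ) (a : Code × ℕ × List Bool × ℕ × ℕ) =>
      (Code.evaln a.2.1 a.1 (Encodable.encode (a.2.2.1, a.2.2.2.1, j))).isSome = true) := by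
    have h1 : Primrec₂ (fun (j : ℕ) (a : Code × ℕ × List Bool × ℕ × ℕ) =>
        (Code.evaln a.2.1 a.1 (Encodable.encode (a.2.2.1, a.2.2.2.1, j))).isSome) :=
      (Primrec.option_isSome.comp
        (evaln5_primrec.comp (Primrec.pair Primrec.snd Primrec.fst))).to₂
    exact Primrec.eq.comp₂ h1 (Primrec.const true).to₂
  have hc : PrimrecPred (fun a : Code × ℕ × List Bool × ℕ × ℕ => ∀ j, j < a.2.2.2.2 →
      (Code.evaln a.2.1 a.1 (Encodable.encode (a.2.2.1, a.2.2.2.1, j))).isSome = true) :=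
    by
      have hfa := hR.forall_mem_list
      have hU : Primrec (fun a : Code × ℕ × List Bool × ℕ × ℕ => List.range a.2.2.2.2) :=
        Primrec.list_range.comp
          (Primrec.snd.comp (Primrec.snd.comp (Primrec.snd.comp Primrec.snd)))
      have h := PrimrecRel.comp hfa hU Primrec.id
      refine PrimrecPred.of_eq h fun a => ?_
      simp
  have hl : Primrec (fun a : Code × ℕ × List Bool × ℕ × ℕ =>
      (List.range a.2.2.2.2).map fun j =>
        decide (Code.evaln a.2.1 a.1 (Encodable.encode (a.2.2.1, a.2.2.2.1, j)) = Option.some 1)) := by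
    refine Primrec.list_map (Primrec.list_range.comp
      (Primrec.snd.comp (Primrec.snd.comp (Primrec.snd.comp Primrec.snd)))) ?_
    have h2 : PrimrecRel (fun (a : Code × ℕ × List Bool × ℕ × ℕ) (j : ℕ) =>
        Code.evaln a.2.1 a.1 (Encodable.encode (a.2.2.1, a.2.2.2.1, j)) = Option.some 1) :=
      Primrec.eq.comp₂ evaln5_primrec.to₂ (Primrec.const (Option.some 1)).to₂
    exact h2.decide
  exact Primrec.ite hc (Primrec.option_some.comp hl) (Primrec.const Option.none)

attribute [irreducible] rb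

/-- one level of the iteration, with self-reference through the code `c` -/
def itF (c₀ : Code) (c : Code) (t : List Bool × ℕ × ℕ) : Part ℕ :=
  cond (decide (t.2.1 = 0))
    (((t.1[t.2.2]?).map Bool.toNat : Option ℕ) : Part ℕ)
    (Nat.rfindOpt fun m =>
      (rb c (Nat.unpair m).2 t.1 (t.2.1 - 1) (Nat.unpair m).1).bind fun ρ =>
        Code.evaln (Nat.unpair m).2 c₀ (Encodable.encode (ρ, t.2.2)))

theorem itF_partrec (c₀ : Code) :
    Partrec (fun q : Code × (List Bool × ℕ × ℕ) => itF c₀ q.1 q.2) := by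
  have hc : Computable (fun q : Code × (List Bool × ℕ × ℕ) => decide (q.2.2.1 = 0)) :=
    (Primrec.eq.comp (Primrec.fst.comp (Primrec.snd.comp Primrec.snd))
      (Primrec.const 0)).decide.to_comp
  have hbase : Partrec (fun q : Code × (List Bool × ℕ × ℕ) =>
      (((q.2.1[q.2.2.2]?).map Bool.toNat : Option ℕ) : Part ℕ)) :=
    Computable.ofOption (sOr_computable.comp (Computable.fst.comp Computable.snd)
      (Computable.snd.comp (Computable.snd.comp Computable.snd)))
  have hstep : Partrec (fun q : Code × (List Bool × ℕ × ℕ) =>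
      Nat.rfindOpt fun m =>
        (rb q.1 (Nat.unpair m).2 q.2.1 (q.2.2.1 - 1) (Nat.unpair m).1).bind fun ρ =>
          Code.evaln (Nat.unpair m).2 c₀ (Encodable.encode (ρ, q.2.2.2))) := by
    refine Partrec.rfindOpt ?_
    have h1 : Computable (fun r : (Code × (List Bool × ℕ × ℕ)) × ℕ =>
        rb r.1.1 (Nat.unpair r.2).2 r.1.2.1 (r.1.2.2.1 - 1) (Nat.unpair r.2).1) := by
      have h2 : Computable (fun r : (Code × (List Bool × ℕ × ℕ)) × ℕ =>
          ((r.1.1, (Nat.unpair r.2).2, r.1.2.1, r.1.2.2.1 - 1, (Nat.unpair r.2).1) :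
            Code × ℕ × List Bool × ℕ × ℕ)) := by
        refine Computable.pair (Computable.fst.comp Computable.fst) (Computable.pair ?_
          (Computable.pair ?_ (Computable.pair ?_ ?_)))
        · exact Computable.snd.comp (Computable.unpair.comp Computable.snd)
        · exact Computable.fst.comp (Computable.snd.comp Computable.fst)
        · exact (Primrec.nat_sub.to_comp).comp
            (Computable.fst.comp (Computable.snd.comp (Computable.snd.comp Computable.fst)))
            (Computable.const 1)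
        · exact Computable.fst.comp (Computable.unpair.comp Computable.snd)
      have h5 := rb_primrec.to_comp
      have h6 := Computable.comp h5 h2
      exact h6
    have h3 : Computable₂ (fun (r : (Code × (List Bool × ℕ × ℕ)) × ℕ) (ρ : List Bool) =>
        Code.evaln (Nat.unpair r.2).2 c₀ (Encodable.encode (ρ, r.1.2.2.2))) := by
      have h4 : Computable (fun w : ((Code × (List Bool × ℕ × ℕ)) × ℕ) × List Bool =>
          (((Nat.unpair w.1.2).2, c₀), Encodable.encode (w.2, w.1.1.2.2.2))) := by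
        refine Computable.pair (Computable.pair ?_ (Computable.const c₀)) ?_
        · exact Computable.snd.comp (Computable.unpair.comp (Computable.snd.comp Computable.fst))
        · refine Computable.encode.comp (Computable.pair Computable.snd ?_)
          exact Computable.snd.comp (Computable.snd.comp (Computable.snd.comp
            (Computable.fst.comp Computable.fst)))
      have h5 := Code.primrec_evaln.to_comp
      have h6 := Computable.comp h5 h4
      exact h6
    have h7 := Computable.option_bind h1 h3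
    exact h7
  have h8 := Partrec.cond hc hbase hstep
  exact h8

attribute [irreducible] itF

/-- the self-referential functional as a function of a code and an encoded argument -/
def itG (c₀ : Code) (c : Code) (x : ℕ) : Part ℕ :=
  (Part.ofOption (Encodable.decode (α := List Bool × ℕ × ℕ) x)).bind (itF c₀ c)

theorem itG_partrec (c₀ : Code) : Partrec₂ (itG c₀) := by
  have h1 : Partrec (fun p : Code × ℕ =>
      (Part.ofOption (Encodable.decode (α := List Bool × ℕ × ℕ) p.2) : Part (List Bool × ℕ × ℕ))) :=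
    Computable.ofOption (Computable.decode.comp Computable.snd)
  have h2 : Partrec₂ (fun (p : Code × ℕ) (t : List Bool × ℕ × ℕ) => itF c₀ p.1 t) := by
    have h4 : Computable (fun r : (Code × ℕ) × (List Bool × ℕ × ℕ) => (r.1.1, r.2)) :=
      Computable.pair (Computable.fst.comp Computable.fst) Computable.snd
    have h3 := Partrec.comp (itF_partrec c₀) h4
    exact h3
  have h5 := Partrec.bind h1 h2
  exact h5

theorem exists_iter_code (c₀ : Code) :
    ∃ c : Code, ∀ τ k i, Code.eval c (Encodable.encode ((τ, k, i) : List Bool × ℕ × ℕ)) =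
      itF c₀ c (τ, k, i) := by
  obtain ⟨c, hc⟩ := Code.fixed_point₂ (f := itG c₀) (itG_partrec c₀)
  refine ⟨c, fun τ k i => ?_⟩
  rw [hc]
  simp [itG]

theorem rb_eq_some_iff (c : Code) (s : ℕ) (τ : List Bool) (k U : ℕ) (ρ : List Bool) :
    rb c s τ k U = Option.some ρ ↔
      (∀ j, j < U → (Code.evaln s c (Encodable.encode (τ, k, j))).isSome = true) ∧
      ρ = (List.range U).map fun j =>
        decide (Code.evaln s c (Encodable.encode (τ, k, j)) = Option.some 1) := by
  unfold rb
  split_ifs with h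
  · constructor
    · intro h1
      exact ⟨h, (Option.some.inj h1).symm⟩
    · rintro ⟨-, h2⟩
      rw [h2]
  · constructor
    · intro h1
      exact absurd h1 (by simp)
    · rintro ⟨h1, -⟩
      exact absurd h1 h

theorem dense_preimage_iterate (K : (ℕ → Bool) ≃ₜ (ℕ → Bool)) (D : Set (ℕ → Bool))
    (hD : Dense D) : ∀ k : ℕ, Dense ((K^[k]) ⁻¹' D) := by
  intro k
  induction k with
  | zero => exact hD
  | succ k ih =>
    have : (K^[k + 1]) ⁻¹' D = K ⁻¹' ((K^[k]) ⁻¹' D) := by
      ext x
      simp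
    rw [this]
    exact ih.preimage K.isOpenMap

theorem itF_zero (c₀ c : Code) (τ : List Bool) (i : ℕ) :
    itF c₀ c (τ, 0, i) = (((τ[i]?).map Bool.toNat : Option ℕ) : Part ℕ) := by
  unfold itF
  simp

theorem itF_succ (c₀ c : Code) (τ : List Bool) (k i : ℕ) :
    itF c₀ c (τ, k + 1, i) = Nat.rfindOpt fun m =>
      (rb c (Nat.unpair m).2 τ k (Nat.unpair m).1).bind fun ρ =>
        Code.evaln (Nat.unpair m).2 c₀ (Encodable.encode (ρ, i)) := by
  unfold itF
  simp

theorem isOpen_exists_pre (P : List Bool → Prop) : IsOpen {B : ℕ → Bool | ∃ u, P (pre B u)} := by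
  rw [isOpen_iff_forall_mem_open]
  rintro B ⟨u, hu⟩
  refine ⟨cyl B u, ?_, isOpen_cyl B u, mem_cyl_self B u⟩
  intro B' hB'
  exact ⟨u, by rw [pre_eq_of_mem_cyl hB']; exact hu⟩

theorem exists_fuel (c : Code) (x : ℕ → ℕ) :
    ∀ U : ℕ, (∀ j, j < U → (Code.eval c (x j)).Dom) →
      ∃ s, ∀ j, j < U → (Code.evaln s c (x j)).isSome = true := by
  intro U
  induction U with
  | zero => exact fun _ => ⟨0, fun j hj => absurd hj (Nat.not_lt_zero j)⟩
  | succ U ih =>
    intro h
    obtain ⟨s₁, h₁⟩ := ih fun j hj => h j (Nat.lt_succ_of_lt hj)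
    obtain ⟨w, hw⟩ := Part.dom_iff_mem.1 (h U (Nat.lt_succ_self U))
    obtain ⟨s₂, h₂⟩ := Code.evaln_complete.1 hw
    refine ⟨max s₁ s₂, fun j hj => ?_⟩
    rcases Nat.lt_succ_iff_lt_or_eq.1 hj with hlt | rfl
    · obtain ⟨w', hw'⟩ := Option.isSome_iff_exists.1 (h₁ j hlt)
      have := Code.evaln_mono (le_max_left s₁ s₂) (Option.mem_def.2 hw')
      rw [Option.mem_def.1 this]
      rfl
    · have := Code.evaln_mono (le_max_right s₁ s₂) h₂
      rw [Option.mem_def.1 this]
      rfl

section Iteration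

set_option linter.unusedSectionVars false

variable (K : (ℕ → Bool) ≃ₜ (ℕ → Bool)) {ψ : List Bool → ℕ → Part ℕ} (hψ : IsWeak ψ K)
  {c₀ c : Code} (hc₀ : ∀ τ n, Code.eval c₀ (Encodable.encode (τ, n)) = ψ τ n)
  (hc : ∀ τ k i, Code.eval c (Encodable.encode ((τ, k, i) : List Bool × ℕ × ℕ)) =
    itF c₀ c (τ, k, i))

include hψ hc₀ hc

theorem rb_pre (B : ℕ → Bool) (u k U s : ℕ) (ρ : List Bool)
    (hk : ∀ i v, v ∈ Code.eval c (Encodable.encode (pre B u, k, i)) → v = (K^[k] B i).toNat)
    (h : rb c s (pre B u) k U = Option.some ρ) : ρ = pre (K^[k] B) U := by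
  obtain ⟨h1, h2⟩ := (rb_eq_some_iff c s (pre B u) k U ρ).1 h
  rw [h2]
  show _ = (List.range U).map (K^[k] B)
  apply List.map_congr_left
  intro j hj
  obtain ⟨w, hw⟩ := Option.isSome_iff_exists.1 (h1 j (List.mem_range.1 hj))
  have hw' : w = (K^[k] B j).toNat := hk j w (Code.evaln_sound (Option.mem_def.2 hw))
  rw [hw, hw']
  cases K^[k] B j <;> simp

theorem lev_correct : ∀ (k : ℕ) (B : ℕ → Bool) (u i v : ℕ),
    v ∈ Code.eval c (Encodable.encode (pre B u, k, i)) → v = (K^[k] B i).toNat := by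
  intro k
  induction k with
  | zero =>
    intro B u i v hv
    rw [hc, itF_zero, pre_getElem?] at hv
    by_cases hi : i < u
    · simp only [hi, if_true, Option.map_some, Part.coe_some, Part.mem_some_iff] at hv
      simpa using hv
    · simp [hi] at hv
  | succ k ih =>
    intro B u i v hv
    rw [hc, itF_succ] at hv
    obtain ⟨m, hm⟩ := Nat.rfindOpt_spec hv
    rw [Option.mem_def, Option.bind_eq_some_iff] at hm
    obtain ⟨ρ, hρ, hv2⟩ := hm
    have hρ' := rb_pre K hψ hc₀ hc B u k _ _ ρ (fun i v => ih B u i v) hρ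
    rw [hρ'] at hv2
    have h3 : v ∈ ψ (pre (K^[k] B) (Nat.unpair m).1) i := by
      rw [← hc₀]
      exact Code.evaln_sound (Option.mem_def.2 hv2)
    rw [hψ.correct _ _ _ _ h3, Function.iterate_succ_apply']

theorem rb_exists (B : ℕ → Bool) (u k U : ℕ)
    (hdom : ∀ j, j < U → (Code.eval c (Encodable.encode (pre B u, k, j))).Dom) :
    ∃ s₁, ∀ s, s₁ ≤ s → rb c s (pre B u) k U = Option.some (pre (K^[k] B) U) := by
  obtain ⟨s₁, h₁⟩ := exists_fuel c (fun j => Encodable.encode (pre B u, k, j)) U hdom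
  refine ⟨s₁, fun s hs => ?_⟩
  have h2 : ∀ j, j < U →
      (Code.evaln s c (Encodable.encode (pre B u, k, j))).isSome = true := by
    intro j hj
    obtain ⟨w, hw⟩ := Option.isSome_iff_exists.1 (h₁ j hj)
    have := Code.evaln_mono hs (Option.mem_def.2 hw)
    rw [Option.mem_def.1 this]
    rfl
  have h3 : rb c s (pre B u) k U = Option.some ((List.range U).map fun j =>
      decide (Code.evaln s c (Encodable.encode (pre B u, k, j)) = Option.some 1)) :=
    (rb_eq_some_iff _ _ _ _ _ _).2 ⟨h2, rfl⟩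
  rw [h3]
  congr 1
  exact rb_pre K hψ hc₀ hc B u k U s _ (fun i v => lev_correct K hψ hc₀ hc k B u i v) h3

theorem lev_succ_dom (B : ℕ → Bool) (u k i U s : ℕ)
    (h1 : rb c s (pre B u) k U = Option.some (pre (K^[k] B) U))
    (h2 : (Code.evaln s c₀ (Encodable.encode (pre (K^[k] B) U, i))).isSome = true) :
    (Code.eval c (Encodable.encode (pre B u, k + 1, i))).Dom := by
  rw [hc, itF_succ, Nat.rfindOpt_dom]
  obtain ⟨v, hv⟩ := Option.isSome_iff_exists.1 h2
  refine ⟨Nat.pair U s, v, ?_⟩
  simp only [Nat.unpair_pair]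
  rw [h1]
  exact Option.mem_def.2 hv

theorem lev_mono : ∀ (k : ℕ) (B : ℕ → Bool) (u u' i : ℕ), u ≤ u' →
    (Code.eval c (Encodable.encode (pre B u, k, i))).Dom →
    (Code.eval c (Encodable.encode (pre B u', k, i))).Dom := by
  intro k
  induction k with
  | zero =>
    intro B u u' i huu hd
    rw [hc, itF_zero, pre_getElem?] at hd ⊢
    by_cases hi : i < u
    · simp [lt_of_lt_of_le hi huu]
    · simp [hi] at hd
  | succ k ih =>
    intro B u u' i huu hd
    obtain ⟨v, hv⟩ := Part.dom_iff_mem.1 hd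
    rw [hc, itF_succ] at hv
    obtain ⟨m, hm⟩ := Nat.rfindOpt_spec hv
    rw [Option.mem_def, Option.bind_eq_some_iff] at hm
    obtain ⟨ρ, hρ, hv2⟩ := hm
    have hρ' := rb_pre K hψ hc₀ hc B u k _ _ ρ
      (fun i v => lev_correct K hψ hc₀ hc k B u i v) hρ
    rw [hρ'] at hv2
    obtain ⟨h1, -⟩ := (rb_eq_some_iff _ _ _ _ _ _).1 hρ
    have hdom' : ∀ j, j < (Nat.unpair m).1 →
        (Code.eval c (Encodable.encode (pre B u', k, j))).Dom := by
      intro j hj
      apply ih B u u' j huu
      obtain ⟨w, hw⟩ := Option.isSome_iff_exists.1 (h1 j hj)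
      exact Part.dom_iff_mem.2 ⟨w, Code.evaln_sound (Option.mem_def.2 hw)⟩
    obtain ⟨s₁, hs₁⟩ := rb_exists K hψ hc₀ hc B u' k _ hdom'
    apply lev_succ_dom K hψ hc₀ hc B u' k i (Nat.unpair m).1 (max s₁ (Nat.unpair m).2)
      (hs₁ _ (le_max_left _ _))
    have := Code.evaln_mono (le_max_right s₁ (Nat.unpair m).2) (Option.mem_def.2 hv2)
    rw [Option.mem_def.1 this]
    rfl

theorem exists_common_pre (B : ℕ → Bool) (k : ℕ) :
    ∀ U : ℕ, (∀ j, j < U → ∃ u, (Code.eval c (Encodable.encode (pre B u, k, j))).Dom) →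
      ∃ u, ∀ j, j < U → (Code.eval c (Encodable.encode (pre B u, k, j))).Dom := by
  intro U
  induction U with
  | zero => exact fun _ => ⟨0, fun j hj => absurd hj (Nat.not_lt_zero j)⟩
  | succ U ih =>
    intro h
    obtain ⟨u₁, h₁⟩ := ih fun j hj => h j (Nat.lt_succ_of_lt hj)
    obtain ⟨u₂, h₂⟩ := h U (Nat.lt_succ_self U)
    refine ⟨max u₁ u₂, fun j hj => ?_⟩
    rcases Nat.lt_succ_iff_lt_or_eq.1 hj with hlt | rfl
    · exact lev_mono K hψ hc₀ hc k B u₁ _ j (le_max_left _ _) (h₁ j hlt)
    · exact lev_mono K hψ hc₀ hc k B u₂ _ j (le_max_right _ _) h₂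

theorem lev_dense : ∀ (k i : ℕ),
    Dense {B : ℕ → Bool | ∃ u, (Code.eval c (Encodable.encode (pre B u, k, i))).Dom} := by
  intro k
  induction k with
  | zero =>
    intro i
    have : {B : ℕ → Bool | ∃ u, (Code.eval c (Encodable.encode (pre B u, 0, i))).Dom}
        = Set.univ := by
      apply Set.eq_univ_of_forall
      intro B
      refine ⟨i + 1, ?_⟩
      rw [hc, itF_zero, pre_getElem?]
      simp
    rw [this]
    exact dense_univ
  | succ k ih =>
    intro i
    rw [dense_iff_inter_open]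
    intro V hV hVne
    -- the set of reals whose k-th iterate lies in the domain of ψ at i
    have hE : Dense {B' : ℕ → Bool | ∃ U, (ψ (pre B' U) i).Dom} := hψ.dense i
    have hKk : Continuous (K^[k]) := K.continuous.iterate k
    have hpre : Dense ((K^[k]) ⁻¹' {B' : ℕ → Bool | ∃ U, (ψ (pre B' U) i).Dom}) :=
      dense_preimage_iterate K _ hE k
    obtain ⟨B₁, hB₁V, U, hU⟩ := (dense_iff_inter_open.1 hpre) V hV hVne
    set V₂ := V ∩ (K^[k]) ⁻¹' (cyl (K^[k] B₁) U) with hV₂
    have hV₂o : IsOpen V₂ := hV.inter ((isOpen_cyl _ _).preimage hKk)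
    have hV₂ne : V₂.Nonempty := ⟨B₁, hB₁V, mem_cyl_self _ _⟩
    have hall : Dense (⋂ j : ℕ, {B : ℕ → Bool |
        ∃ u, (Code.eval c (Encodable.encode (pre B u, k, j))).Dom}) :=
      dense_iInter_of_isOpen_nat
        (fun j => isOpen_exists_pre (fun τ => (Code.eval c (Encodable.encode (τ, k, j))).Dom))
        (fun j => ih j)
    obtain ⟨B, ⟨hBV, hBc⟩, hBall⟩ := (dense_iff_inter_open.1 hall) V₂ hV₂o hV₂ne
    rw [Set.mem_iInter] at hBall
    obtain ⟨u, hu⟩ := exists_common_pre K hψ hc₀ hc B k U (fun j _ => hBall j)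
    obtain ⟨s₁, hs₁⟩ := rb_exists K hψ hc₀ hc B u k U hu
    have hpreq : pre (K^[k] B) U = pre (K^[k] B₁) U := pre_eq_of_mem_cyl hBc
    obtain ⟨v, hv⟩ := Part.dom_iff_mem.1 hU
    rw [← hc₀] at hv
    obtain ⟨s₂, hs₂⟩ := Code.evaln_complete.1 hv
    refine ⟨B, hBV, u, ?_⟩
    apply lev_succ_dom K hψ hc₀ hc B u k i U (max s₁ s₂) (hs₁ _ (le_max_left _ _))
    rw [hpreq]
    have := Code.evaln_mono (le_max_right s₁ s₂) hs₂
    rw [Option.mem_def.1 this]
    rfl

end Iteration

/-- Uniform iteration: from a weak functional for a homeomorphism `K` one gets a partial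
recursive functional computing a fixed finite observable of all iterates `K^[k] B`. -/
theorem exists_iter_functional (K : (ℕ → Bool) ≃ₜ (ℕ → Bool)) {ψ : List Bool → ℕ → Part ℕ}
    (hψ : IsWeak ψ K) (θ : List Bool → ℕ) (hθ : Computable θ) (m₀ : ℕ) :
    ∃ ψ' : List Bool → ℕ → Part ℕ, Partrec₂ ψ' ∧
      (∀ B u k v, v ∈ ψ' (pre B u) k → v = θ (pre (K^[k] B) m₀)) ∧
      (∀ k, Dense {B : ℕ → Bool | ∃ u, (ψ' (pre B u) k).Dom}) := by
  obtain ⟨c₀, hc₀⟩ := code_of_partrec₂ hψ.partrec
  obtain ⟨c, hc⟩ := exists_iter_code c₀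
  refine ⟨fun τ k => Nat.rfindOpt fun s => (rb c s τ k m₀).map θ, ?_, ?_, ?_⟩
  · refine Partrec.rfindOpt ?_
    have h1 : Computable (fun r : (List Bool × ℕ) × ℕ => rb c r.2 r.1.1 r.1.2 m₀) := by
      have h2 : Computable (fun r : (List Bool × ℕ) × ℕ =>
          ((c, r.2, r.1.1, r.1.2, m₀) : Code × ℕ × List Bool × ℕ × ℕ)) := by
        refine Computable.pair (Computable.const c) (Computable.pair Computable.snd
          (Computable.pair ?_ (Computable.pair ?_ (Computable.const m₀))))
        · exact Computable.fst.comp Computable.fst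
        · exact Computable.snd.comp Computable.fst
      have h5 := rb_primrec.to_comp
      have h6 := Computable.comp h5 h2
      exact h6
    have h3 : Computable₂ (fun (_ : (List Bool × ℕ) × ℕ) (ρ : List Bool) => θ ρ) :=
      (hθ.comp Computable.snd).to₂
    have h7 := Computable.option_map h1 h3
    exact h7
  · intro B u k v hv
    obtain ⟨s, hs⟩ := Nat.rfindOpt_spec hv
    rw [Option.mem_def, Option.map_eq_some_iff] at hs
    obtain ⟨ρ, hρ, rfl⟩ := hs
    rw [rb_pre K hψ hc₀ hc B u k m₀ s ρ (fun i v => lev_correct K hψ hc₀ hc k B u i v) hρ]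
  · intro k
    have hall : Dense (⋂ j : ℕ, {B : ℕ → Bool |
        ∃ u, (Code.eval c (Encodable.encode (pre B u, k, j))).Dom}) :=
      dense_iInter_of_isOpen_nat
        (fun j => isOpen_exists_pre (fun τ => (Code.eval c (Encodable.encode (τ, k, j))).Dom))
        (fun j => lev_dense K hψ hc₀ hc k j)
    refine hall.mono ?_
    intro B hB
    rw [Set.mem_iInter] at hB
    obtain ⟨u, hu⟩ := exists_common_pre K hψ hc₀ hc B k m₀ (fun j _ => hB j)
    obtain ⟨s₁, hs₁⟩ := rb_exists K hψ hc₀ hc B u k m₀ hu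
    refine ⟨u, ?_⟩
    rw [Nat.rfindOpt_dom]
    refine ⟨s₁, θ (pre (K^[k] B) m₀), ?_⟩
    rw [hs₁ s₁ le_rfl]
    rfl

theorem exists_table (v₀ : (ℕ → Bool) → Bool) (hv : Continuous v₀) :
    ∃ (m₀ : ℕ) (θ : List Bool → ℕ), Computable θ ∧ ∀ X : ℕ → Bool, θ (pre X m₀) = (v₀ X).toNat := by
  obtain ⟨m₀, hm₀⟩ := exists_modulus_bit v₀ hv
  refine ⟨m₀, fun ρ => if ρ.length = m₀ then (v₀ (ext ρ)).toNat else 0, ?_, ?_⟩
  · apply Primrec.to_comp
    apply primrec_of_finite_support ((Finset.univ : Finset (Fin m₀ → Bool)).image List.ofFn)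
    intro ρ hρ
    rw [if_neg]
    intro h1
    apply hρ
    simp only [Finset.mem_image, Finset.mem_univ, true_and]
    exact ⟨fun i => ext ρ i, ofFn_ext ρ m₀ h1⟩
  · intro X
    show (if (pre X m₀).length = m₀ then (v₀ (ext (pre X m₀))).toNat else 0) = (v₀ X).toNat
    rw [if_pos (pre_length X m₀)]
    congr 1
    apply hm₀
    intro i hi
    have := ext_pre_take X m₀ m₀ le_rfl i hi
    rw [pre_take, min_self] at this
    exact this

end Vale.Agent.Lib.P327
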