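import Vale.Agent.Lib.P327.Join

/-!
A Jockusch and Posner style minimal pair argument, carried out with the Baire category theorem on
the product of two copies of Cantor space: for every real `A` and every comeager set there are
`G`, `G'` such that `G`, `G'` and their symmetric differences with `A` lie in the comeager set
and every real reducible to both `G ⊕ (G △ A)` and `G' ⊕ (G' △ A)` is reducible to `A`.
-/

namespace Vale.Agent.Lib.P327

open Part Nat.Partrec

theorem le_trans' {A B C : ℕ → Bool} (h1 : Nat.RecursiveIn {chi B} (chi A))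
    (h2 : Nat.RecursiveIn {chi C} (chi B)) : Nat.RecursiveIn {chi C} (chi A) := by
  refine Nat.RecursiveIn.subst h1 fun g hg => ?_
  have hg' : g = chi B := hg
  rw [hg']
  exact h2

theorem pre_congr {B B' : ℕ → Bool} {u : ℕ} (h : ∀ i, i < u → B i = B' i) : pre B u = pre B' u := by
  unfold pre
  apply List.map_congr_left
  intro i hi
  exact h i (List.mem_range.1 hi)

theorem pre_jnx_eq {G H A : ℕ → Bool} {u : ℕ} (h : H ∈ cyl G u) :
    pre (jnx H A) u = pre (jnx G A) u := by
  apply pre_congr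
  intro i hi
  exact jnx_agree (u := u) h (fun _ _ => rfl) i (by omega)

/-- the set of pairs on which two codes disagree somewhere -/
def Sdis (A : ℕ → Bool) (c c' : OC) : Set ((ℕ → Bool) × (ℕ → Bool)) :=
  {p | ∃ n v v', v ∈ c.eval (chi (jnx p.1 A)) n ∧ v' ∈ c'.eval (chi (jnx p.2 A)) n ∧ v ≠ v'}

theorem isOpen_Sdis (A : ℕ → Bool) (c c' : OC) : IsOpen (Sdis A c c') := by
  rw [isOpen_iff_forall_mem_open]
  rintro ⟨G, G'⟩ ⟨n, v, v', hv, hv', hne⟩
  obtain ⟨u, hu⟩ := (eval_chi_iff c _ n v).1 hv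
  obtain ⟨u', hu'⟩ := (eval_chi_iff c' _ n v').1 hv'
  refine ⟨cyl G u ×ˢ cyl G' u', ?_, (isOpen_cyl G u).prod (isOpen_cyl G' u'),
    ⟨mem_cyl_self G u, mem_cyl_self G' u'⟩⟩
  rintro ⟨H, H'⟩ ⟨hH, hH'⟩
  refine ⟨n, v, v', ?_, ?_, hne⟩
  · rw [eval_chi_iff]
    refine ⟨u, ?_⟩
    show v ∈ c.eval (sOr (pre (jnx H A) u)) n
    rw [pre_jnx_eq hH]
    exact hu
  · rw [eval_chi_iff]
    refine ⟨u', ?_⟩
    show v' ∈ c'.eval (sOr (pre (jnx H' A) u')) n
    rw [pre_jnx_eq hH']
    exact hu'

theorem dense_union_interior_compl' {X : Type*} [TopologicalSpace X] (S : Set X) :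
    Dense (S ∪ interior Sᶜ) := by
  intro x
  rw [closure_union]
  by_cases hx : x ∈ closure S
  · exact Or.inl hx
  · refine Or.inr (subset_closure ?_)
    rw [interior_compl]
    exact hx

/-- the oracle string for `G ⊕ (G △ A)` built from strings for `G` and `A` -/
def mstr (τ α : List Bool) : List Bool := pre (jnx (ext τ) (ext α)) (2 * α.length)

theorem mstr_primrec : Primrec₂ mstr := by
  have hlen : Primrec (fun a : List Bool × List Bool => List.range (2 * a.2.length)) :=
    Primrec.list_range.comp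
      (Primrec.nat_mul.comp (Primrec.const 2) (Primrec.list_length.comp Primrec.snd))
  have hg : Primrec₂ (fun (a : List Bool × List Bool) (i : ℕ) =>
      if i % 2 = 0 then a.1.getD (i / 2) false
      else xor (a.1.getD (i / 2) false) (a.2.getD (i / 2) false)) := by
    have hmod : PrimrecPred (fun q : (List Bool × List Bool) × ℕ => q.2 % 2 = 0) :=
      Primrec.eq.comp (Primrec.nat_mod.comp Primrec.snd (Primrec.const 2)) (Primrec.const 0)
    have hdiv : Primrec (fun q : (List Bool × List Bool) × ℕ => q.2 / 2) :=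
      Primrec.nat_div.comp Primrec.snd (Primrec.const 2)
    have h1 : Primrec (fun q : (List Bool × List Bool) × ℕ => q.1.1.getD (q.2 / 2) false) :=
      (Primrec.list_getD false).comp (Primrec.fst.comp Primrec.fst) hdiv
    have h2 : Primrec (fun q : (List Bool × List Bool) × ℕ => q.1.2.getD (q.2 / 2) false) :=
      (Primrec.list_getD false).comp (Primrec.snd.comp Primrec.fst) hdiv
    have h3 : Primrec (fun q : (List Bool × List Bool) × ℕ =>
        xor (q.1.1.getD (q.2 / 2) false) (q.1.2.getD (q.2 / 2) false)) :=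
      (Primrec.dom_bool₂ xor).comp h1 h2
    exact Primrec.ite hmod h1 h3
  have h := Primrec.list_map hlen hg
  exact h

/-- the search for a computation from `G ⊕ (G △ A)` over all `G` in a cylinder -/
def jpsi (c₁ : Code) (σ₀ : List Bool) (α : List Bool) (n : ℕ) : Part ℕ :=
  Nat.rfindOpt fun m =>
    (Encodable.decode (α := List Bool) (Nat.unpair m).1).bind fun τ =>
      if τ.length = α.length ∧ τ.take σ₀.length = σ₀ then
        Code.evaln (Nat.unpair m).2 c₁ (Encodable.encode (mstr τ α, n))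
      else Option.none

theorem jpsi_partrec (c₁ : Code) (σ₀ : List Bool) : Partrec₂ (jpsi c₁ σ₀) := by
  refine Partrec.rfindOpt ?_
  have h1 : Computable (fun a : (List Bool × ℕ) × ℕ =>
      Encodable.decode (α := List Bool) (Nat.unpair a.2).1) :=
    Computable.decode.comp (Computable.fst.comp (Computable.unpair.comp Computable.snd))
  have h2 : Primrec₂ (fun (a : (List Bool × ℕ) × ℕ) (τ : List Bool) =>
      if τ.length = a.1.1.length ∧ τ.take σ₀.length = σ₀ then
        Code.evaln (Nat.unpair a.2).2 c₁ (Encodable.encode (mstr τ a.1.1, a.1.2))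
      else Option.none) := by
    have hc1 : PrimrecPred (fun q : ((List Bool × ℕ) × ℕ) × List Bool =>
        q.2.length = q.1.1.1.length) :=
      Primrec.eq.comp (Primrec.list_length.comp Primrec.snd)
        (Primrec.list_length.comp (Primrec.fst.comp (Primrec.fst.comp Primrec.fst)))
    have hc2 : PrimrecPred (fun q : ((List Bool × ℕ) × ℕ) × List Bool =>
        q.2.take σ₀.length = σ₀) :=
      Primrec.eq.comp (Primrec.list_take.comp (Primrec.const σ₀.length) Primrec.snd)
        (Primrec.const σ₀)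
    have hc := hc1.and hc2
    have hm : Primrec (fun q : ((List Bool × ℕ) × ℕ) × List Bool => mstr q.2 q.1.1.1) :=
      mstr_primrec.comp Primrec.snd (Primrec.fst.comp (Primrec.fst.comp Primrec.fst))
    have he : Primrec (fun q : ((List Bool × ℕ) × ℕ) × List Bool =>
        (((Nat.unpair q.1.2).2, c₁), Encodable.encode (mstr q.2 q.1.1.1, q.1.1.2))) := by
      refine Primrec.pair (Primrec.pair ?_ (Primrec.const c₁)) ?_
      · exact Primrec.snd.comp (Primrec.unpair.comp (Primrec.snd.comp Primrec.fst))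
      · exact Primrec.encode.comp (Primrec.pair hm
          (Primrec.snd.comp (Primrec.fst.comp Primrec.fst)))
    have hev := Code.primrec_evaln.comp he
    have h := Primrec.ite hc hev (Primrec.const Option.none)
    exact h
  have h := Computable.option_bind h1 h2.to_comp
  exact h

theorem ext_pre (B : ℕ → Bool) (u i : ℕ) (hi : i < u) : ext (pre B u) i = B i := by
  unfold ext
  rw [List.getD_eq_getElem?_getD, pre_getElem?]
  simp [hi]

theorem ext_mem_cyl (τ : List Bool) (G : ℕ → Bool) (L : ℕ) (h : τ.take L = pre G L) :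
    ext τ ∈ cyl G L := by
  intro i hi
  unfold ext
  rw [List.getD_eq_getElem?_getD]
  have h1 : (τ.take L)[i]? = τ[i]? := by
    rw [List.getElem?_take]
    simp [hi]
  rw [← h1, h, pre_getElem?]
  simp [hi]

theorem mstr_pre (τ : List Bool) (H A : ℕ → Bool) (u : ℕ) (hH : ∀ i, i < u → ext τ i = H i) :
    mstr τ (pre A u) = pre (jnx H A) (2 * u) := by
  unfold mstr
  rw [pre_length]
  apply pre_congr
  exact jnx_agree hH (fun i hi => ext_pre A u i hi)

/-- If two reductions from the two joins compute the same real and cannot be made to disagree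
on a cylinder around `G`, the real is reducible to `A`. -/
theorem le_of_local_agree (A G G' X : ℕ → Bool) (c c' : OC) (L : ℕ)
    (hc : ∀ n, (X n).toNat ∈ c.eval (chi (jnx G A)) n)
    (hc' : ∀ n, (X n).toNat ∈ c'.eval (chi (jnx G' A)) n)
    (hL : ∀ H, H ∈ cyl G L → (H, G') ∉ Sdis A c c') :
    Nat.RecursiveIn {chi A} (chi X) := by
  obtain ⟨c₁, hc₁⟩ := code_of_partrec₂ (OC.eval_sOr_partrec c)
  have hcorr : ∀ (τ : List Bool) (u n v : ℕ), τ.take L = pre G L →
      v ∈ c.eval (sOr (mstr τ (pre A u))) n → v = (X n).toNat := by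
    intro τ u n v htake hv
    have hH : ext τ ∈ cyl G L := ext_mem_cyl τ G L htake
    rw [mstr_pre τ (ext τ) A u (fun _ _ => rfl)] at hv
    have hv2 : v ∈ c.eval (chi (jnx (ext τ) A)) n := (eval_chi_iff _ _ _ _).2 ⟨_, hv⟩
    by_contra hne
    exact hL _ hH ⟨n, v, (X n).toNat, hv2, hc' n, hne⟩
  have h2 : ∀ n u v, v ∈ jpsi c₁ (pre G L) (pre A u) n → v = (X n).toNat := by
    intro n u v hv
    obtain ⟨m, hm⟩ := Nat.rfindOpt_spec hv
    rw [Option.mem_def, Option.bind_eq_some_iff] at hm
    obtain ⟨τ, -, hτ⟩ := hm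
    by_cases hcond : τ.length = (pre A u).length ∧ τ.take (pre G L).length = pre G L
    · rw [if_pos hcond] at hτ
      have h3 := Code.evaln_sound hτ
      rw [hc₁] at h3
      have h4 := hcond.2
      rw [pre_length] at h4
      exact hcorr τ u n v h4 h3
    · rw [if_neg hcond] at hτ
      exact absurd hτ (by simp)
  refine reducible_of_partrec (jpsi c₁ (pre G L)) (jpsi_partrec c₁ (pre G L)) A X ?_ h2
  intro n
  obtain ⟨u₀, hu₀⟩ := (eval_chi_iff c _ n _).1 (hc n)
  set u := max L u₀ with hu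
  have h5 : (X n).toNat ∈ c.eval (sOr (pre (jnx G A) (2 * u))) n :=
    eval_pre_mono c _ (by omega) n _ hu₀
  have h6 : mstr (pre G u) (pre A u) = pre (jnx G A) (2 * u) :=
    mstr_pre (pre G u) G A u (fun i hi => ext_pre G u i hi)
  rw [← h6, ← hc₁] at h5
  obtain ⟨s, hs⟩ := Code.evaln_complete.1 h5
  have hdom : (jpsi c₁ (pre G L) (pre A u) n).Dom := by
    unfold jpsi
    rw [Nat.rfindOpt_dom]
    refine ⟨Nat.pair (Encodable.encode (pre G u)) s, (X n).toNat, ?_⟩
    simp only [Nat.unpair_pair, Encodable.encodek, Option.bind_some, pre_length]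
    have e : (pre G u).take L = pre G L := by
      rw [pre_take]
      congr 1
      omega
    rw [if_pos ⟨trivial, e⟩]
    exact hs
  obtain ⟨v, hv⟩ := Part.dom_iff_mem.1 hdom
  refine ⟨u, ?_⟩
  rw [← h2 n u v hv]
  exact hv

/-- Jockusch and Posner: sufficiently generic `G`, `G'` give joins whose degrees meet to the
degree of `A`. -/
theorem exists_minimal_pair (A : ℕ → Bool) (U : ℕ → Set (ℕ → Bool)) (hUo : ∀ n, IsOpen (U n))
    (hUd : ∀ n, Dense (U n)) :
    ∃ G G' : ℕ → Bool, (∀ n, G ∈ U n) ∧ (∀ n, bxor G A ∈ U n) ∧ (∀ n, G' ∈ U n) ∧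
      (∀ n, bxor G' A ∈ U n) ∧
      ∀ X : ℕ → Bool, Nat.RecursiveIn {chi (jnx G A)} (chi X) →
        Nat.RecursiveIn {chi (jnx G' A)} (chi X) → Nat.RecursiveIn {chi A} (chi X) := by
  set f : (OC × OC) ⊕ (ℕ ⊕ ℕ ⊕ ℕ ⊕ ℕ) → Set ((ℕ → Bool) × (ℕ → Bool)) :=
    Sum.elim (fun q => Sdis A q.1 q.2 ∪ interior (Sdis A q.1 q.2)ᶜ)
      (Sum.elim (fun n => Prod.fst ⁻¹' U n)
        (Sum.elim (fun n => (fun p : (ℕ → Bool) × (ℕ → Bool) => bxorH A p.1) ⁻¹' U n)
          (Sum.elim (fun n => Prod.snd ⁻¹' U n)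
            (fun n => (fun p : (ℕ → Bool) × (ℕ → Bool) => bxorH A p.2) ⁻¹' U n)))) with hf
  have ho : ∀ i, IsOpen (f i) := by
    rintro (q | n | n | n | n)
    · exact (isOpen_Sdis A q.1 q.2).union isOpen_interior
    · exact (hUo n).preimage continuous_fst
    · exact (hUo n).preimage ((bxorH A).continuous.comp continuous_fst)
    · exact (hUo n).preimage continuous_snd
    · exact (hUo n).preimage ((bxorH A).continuous.comp continuous_snd)
  have hd : ∀ i, Dense (f i) := by
    rintro (q | n | n | n | n)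
    · exact dense_union_interior_compl' _
    · exact (hUd n).preimage isOpenMap_fst
    · exact (hUd n).preimage ((bxorH A).isOpenMap.comp isOpenMap_fst)
    · exact (hUd n).preimage isOpenMap_snd
    · exact (hUd n).preimage ((bxorH A).isOpenMap.comp isOpenMap_snd)
  obtain ⟨⟨G, G'⟩, hp⟩ := (dense_iInter_of_isOpen ho hd).nonempty
  rw [Set.mem_iInter] at hp
  refine ⟨G, G', fun n => hp (Sum.inr (Sum.inl n)), fun n => hp (Sum.inr (Sum.inr (Sum.inl n))),
    fun n => hp (Sum.inr (Sum.inr (Sum.inr (Sum.inl n)))),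
    fun n => hp (Sum.inr (Sum.inr (Sum.inr (Sum.inr n)))), ?_⟩
  intro X hX hX'
  obtain ⟨c, hc⟩ := exists_code hX
  obtain ⟨c', hc'⟩ := exists_code hX'
  have hcn : ∀ n, (X n).toNat ∈ c.eval (chi (jnx G A)) n := by
    intro n
    rw [hc]
    exact Part.mem_some _
  have hcn' : ∀ n, (X n).toNat ∈ c'.eval (chi (jnx G' A)) n := by
    intro n
    rw [hc']
    exact Part.mem_some _
  have hnot : ((G, G') : (ℕ → Bool) × (ℕ → Bool)) ∉ Sdis A c c' := by
    rintro ⟨n, v, v', hv, hv', hne⟩
    exact hne ((Part.mem_unique hv (hcn n)).trans (Part.mem_unique (hcn' n) hv'))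
  have hint : ((G, G') : (ℕ → Bool) × (ℕ → Bool)) ∈ interior (Sdis A c c')ᶜ := by
    rcases hp (Sum.inl (c, c')) with h | h
    · exact absurd h hnot
    · exact h
  rw [mem_interior] at hint
  obtain ⟨W, hWsub, hWo, hWmem⟩ := hint
  obtain ⟨V₁, V₂, hV₁, hV₂, hG, hG', hsub⟩ := isOpen_prod_iff.1 hWo G G' hWmem
  obtain ⟨L, hL⟩ := exists_cyl_subset hV₁ hG
  refine le_of_local_agree A G G' X c c' L hcn hcn' ?_
  intro H hH
  exact hWsub (hsub ⟨hL hH, hG'⟩)

end Vale.Agent.Lib.P327
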