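import Vale.Agent.Lib.P327.Generic

/-!
Joins, symmetric differences and the associated Turing reductions.
-/

namespace Vale.Agent.Lib.P327

open Part Nat.Partrec

/-- pointwise exclusive or -/
def bxor (G A : ℕ → Bool) : ℕ → Bool := fun n => xor (G n) (A n)

/-- join of two reals -/
def jn (P Q : ℕ → Bool) : ℕ → Bool := fun n => if n % 2 = 0 then P (n / 2) else Q (n / 2)

/-- the join of `G` with its symmetric difference with `A` -/
def jnx (G A : ℕ → Bool) : ℕ → Bool := jn G (bxor G A)

theorem bxor_bxor (G A : ℕ → Bool) : bxor (bxor G A) A = G := by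
  funext n
  simp [bxor]

theorem jn_even (P Q : ℕ → Bool) (n : ℕ) : jn P Q (2 * n) = P n := by
  simp [jn]

theorem jn_odd (P Q : ℕ → Bool) (n : ℕ) : jn P Q (2 * n + 1) = Q n := by
  have h2 : (2 * n + 1) / 2 = n := by omega
  simp [jn, h2]

theorem jnx_agree {G G' A A' : ℕ → Bool} {u : ℕ} (hG : ∀ i, i < u → G i = G' i)
    (hA : ∀ i, i < u → A i = A' i) : ∀ i, i < 2 * u → jnx G A i = jnx G' A' i := by
  intro i hi
  have h : i / 2 < u := by omega
  unfold jnx jn bxor
  rw [hG _ h, hA _ h]

theorem jn_left_le (P Q : ℕ → Bool) : Nat.RecursiveIn {chi (jn P Q)} (chi P) := by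
  have h := recIn_comp (recIn_chi (jn P Q)) (recIn_of_computable (O := {chi (jn P Q)})
    (f := fun n => 2 * n) Primrec.nat_double.to_comp)
  refine Nat.RecursiveIn.of_eq h fun n => ?_
  simp only [jn_even]
  rfl

theorem jn_right_le (P Q : ℕ → Bool) : Nat.RecursiveIn {chi (jn P Q)} (chi Q) := by
  have h := recIn_comp (recIn_chi (jn P Q)) (recIn_of_computable (O := {chi (jn P Q)})
    (f := fun n => 2 * n + 1) Primrec.nat_double_succ.to_comp)
  refine Nat.RecursiveIn.of_eq h fun n => ?_
  simp only [jn_odd]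
  rfl

theorem jn_le {P Q Y : ℕ → Bool} (hP : Nat.RecursiveIn {chi Y} (chi P))
    (hQ : Nat.RecursiveIn {chi Y} (chi Q)) : Nat.RecursiveIn {chi Y} (chi (jn P Q)) := by
  have hdiv : RecIn {chi Y} (fun n : ℕ => n / 2) :=
    recIn_of_computable (Primrec.nat_div.comp Primrec.id (Primrec.const 2)).to_comp
  have h1 : RecIn {chi Y} (fun n : ℕ => (P (n / 2)).toNat) := recIn_comp hP hdiv
  have h2 : RecIn {chi Y} (fun n : ℕ => (Q (n / 2)).toNat) := recIn_comp hQ hdiv
  have h3 := recIn_pair h1 h2
  have hφ : Computable₂ (fun n m : ℕ => if n % 2 = 0 then (Nat.unpair m).1 else (Nat.unpair m).2) := by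
    apply Primrec.to_comp
    have hmod : PrimrecPred (fun p : ℕ × ℕ => p.1 % 2 = 0) :=
      Primrec.eq.comp (Primrec.nat_mod.comp Primrec.fst (Primrec.const 2)) (Primrec.const 0)
    exact Primrec.ite hmod (Primrec.fst.comp (Primrec.unpair.comp Primrec.snd))
      (Primrec.snd.comp (Primrec.unpair.comp Primrec.snd))
  have h4 := recIn_comp₂ hφ (recIn_of_computable (O := {chi Y}) Computable.id) h3
  refine Nat.RecursiveIn.of_eq h4 fun n => ?_
  simp only [Nat.unpair_pair, id, chi, jn]
  by_cases hn : n % 2 = 0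
  · simp [hn]
  · simp [hn]

theorem le_jnx (G A : ℕ → Bool) : Nat.RecursiveIn {chi (jnx G A)} (chi A) := by
  have h1 : RecIn {chi (jnx G A)} (fun n : ℕ => (G n).toNat) := jn_left_le G (bxor G A)
  have h2 : RecIn {chi (jnx G A)} (fun n : ℕ => (bxor G A n).toNat) := jn_right_le G (bxor G A)
  have hφ : Computable₂ (fun x y : ℕ => if x = y then 0 else 1) := by
    apply Primrec.to_comp
    exact Primrec.ite (Primrec.eq.comp Primrec.fst Primrec.snd) (Primrec.const 0) (Primrec.const 1)
  have h3 := recIn_comp₂ hφ h1 h2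
  refine Nat.RecursiveIn.of_eq h3 fun n => ?_
  have key : ∀ x y : Bool, (if x.toNat = (xor x y).toNat then 0 else 1) = y.toNat := by decide
  exact congrArg Part.some (key (G n) (A n))

/-- symmetric difference with a fixed real, as a homeomorphism of Cantor space -/
def bxorH (A : ℕ → Bool) : (ℕ → Bool) ≃ₜ (ℕ → Bool) where
  toFun G := bxor G A
  invFun G := bxor G A
  left_inv G := bxor_bxor G A
  right_inv G := bxor_bxor G A
  continuous_toFun := continuous_pi fun n =>
    (continuous_of_discreteTopology (f := fun b : Bool => xor b (A n))).comp (continuous_apply n)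
  continuous_invFun := continuous_pi fun n =>
    (continuous_of_discreteTopology (f := fun b : Bool => xor b (A n))).comp (continuous_apply n)

theorem bxorH_apply (A G : ℕ → Bool) : bxorH A G = bxor G A := rfl

end Vale.Agent.Lib.P327
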