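import Vale.Agent.Lib.P327.JP

/-!
Assembly: a bi-uniformly tail-determined homeomorphism of Cantor space which preserves and
reflects Turing reducibility fixes the Turing degree of every real.
-/

namespace Vale.Agent.Lib.P327

theorem fixed_everywhere (F : (ℕ → Bool) ≃ₜ (ℕ → Bool)) (hF : UE F) (hF' : UE F.symm)
    (hT : ∀ A B : ℕ → Bool, Nat.RecursiveIn {chi B} (chi A) ↔
      Nat.RecursiveIn {chi (F B)} (chi (F A))) (A : ℕ → Bool) :
    Nat.RecursiveIn {chi A} (chi (F A)) ∧ Nat.RecursiveIn {chi (F A)} (chi A) := by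
  obtain ⟨U, hUo, hUd, hU⟩ := fixed_on_comeager F hF hF' hT
  obtain ⟨G, G', hG, hGA, hG', hG'A, hmin⟩ := exists_minimal_pair A U hUo hUd
  -- joins of fixed reals are fixed
  have hjoin : ∀ P Q : ℕ → Bool, (∀ n, P ∈ U n) → (∀ n, Q ∈ U n) →
      Nat.RecursiveIn {chi (jn P Q)} (chi (F (jn P Q))) ∧
        Nat.RecursiveIn {chi (F (jn P Q))} (chi (jn P Q)) := by
    intro P Q hP hQ
    obtain ⟨hP1, hP2⟩ := hU P hP
    obtain ⟨hQ1, hQ2⟩ := hU Q hQ
    constructor
    · have hFY : F (F.symm (jn P Q)) = jn P Q := F.apply_symm_apply _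
      have h1 : Nat.RecursiveIn {chi (F.symm (jn P Q))} (chi P) := by
        apply (hT P (F.symm (jn P Q))).2
        rw [hFY]
        exact le_trans' hP1 (jn_left_le P Q)
      have h2 : Nat.RecursiveIn {chi (F.symm (jn P Q))} (chi Q) := by
        apply (hT Q (F.symm (jn P Q))).2
        rw [hFY]
        exact le_trans' hQ1 (jn_right_le P Q)
      have h3 : Nat.RecursiveIn {chi (F.symm (jn P Q))} (chi (jn P Q)) := jn_le h1 h2
      have h4 := (hT (jn P Q) (F.symm (jn P Q))).1 h3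
      rw [hFY] at h4
      exact h4
    · have h1 : Nat.RecursiveIn {chi (F (jn P Q))} (chi P) :=
        le_trans' hP2 ((hT P (jn P Q)).1 (jn_left_le P Q))
      have h2 : Nat.RecursiveIn {chi (F (jn P Q))} (chi Q) :=
        le_trans' hQ2 ((hT Q (jn P Q)).1 (jn_right_le P Q))
      exact jn_le h1 h2
  have hM : Nat.RecursiveIn {chi (jnx G A)} (chi (F (jnx G A))) ∧
      Nat.RecursiveIn {chi (F (jnx G A))} (chi (jnx G A)) := hjoin G (bxor G A) hG hGA
  have hM' : Nat.RecursiveIn {chi (jnx G' A)} (chi (F (jnx G' A))) ∧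
      Nat.RecursiveIn {chi (F (jnx G' A))} (chi (jnx G' A)) := hjoin G' (bxor G' A) hG' hG'A
  obtain ⟨hM1, hM2⟩ := hM
  obtain ⟨hM1', hM2'⟩ := hM'
  constructor
  · apply hmin (F A)
    · exact le_trans' ((hT A (jnx G A)).1 (le_jnx G A)) hM1
    · exact le_trans' ((hT A (jnx G' A)).1 (le_jnx G' A)) hM1'
  · have hFY : F (F.symm A) = A := F.apply_symm_apply _
    have h1 : Nat.RecursiveIn {chi (jnx G A)} (chi (F.symm A)) := by
      apply (hT (F.symm A) (jnx G A)).2
      rw [hFY]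
      exact le_trans' (le_jnx G A) hM2
    have h2 : Nat.RecursiveIn {chi (jnx G' A)} (chi (F.symm A)) := by
      apply (hT (F.symm A) (jnx G' A)).2
      rw [hFY]
      exact le_trans' (le_jnx G' A) hM2'
    have h3 := (hT (F.symm A) A).1 (hmin (F.symm A) h1 h2)
    rw [hFY] at h3
    exact h3

end Vale.Agent.Lib.P327
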