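import Mathlib

/-!
Oracle codes mirroring the constructors of `Nat.RecursiveIn`, with monotonicity,
the use principle, and partial recursiveness of evaluation on finite oracle strings.
-/

namespace Vale.Agent.Lib.P327

open Part

/-- Codes for oracle computations, one constructor per constructor of `Nat.RecursiveIn`. -/
inductive OC : Type
  | zero | succ | left | right | oracle
  | pair (a b : OC) | comp (a b : OC) | prec (a b : OC) | rfind (a : OC)
  deriving Countable

/-- primitive recursion scheme used by `Nat.RecursiveIn.prec` -/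
def precF (f h : ℕ → Part ℕ) (x : ℕ) (n : ℕ) : Part ℕ :=
  n.rec (f x) fun y IH => IH.bind fun i => h (Nat.pair x (Nat.pair y i))

/-- evaluation of a code relative to an oracle -/
def OC.eval (g : ℕ → Part ℕ) : OC → ℕ → Part ℕ
  | .zero => fun _ => Part.some 0
  | .succ => fun n => Part.some (n + 1)
  | .left => fun n => Part.some (Nat.unpair n).1
  | .right => fun n => Part.some (Nat.unpair n).2
  | .oracle => g
  | .pair a b => fun n => (a.eval g n).bind fun x => (b.eval g n).map fun y => Nat.pair x y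
  | .comp a b => fun n => (b.eval g n).bind (a.eval g)
  | .prec a b => fun p => precF (a.eval g) (b.eval g) (Nat.unpair p).1 (Nat.unpair p).2
  | .rfind a => fun x => Nat.rfind fun n => (a.eval g (Nat.pair x n)).map fun m => decide (m = 0)

theorem OC.eval_recursiveIn (g : ℕ →. ℕ) (c : OC) : Nat.RecursiveIn {g} (c.eval g) := by
  induction c with
  | zero => exact Nat.RecursiveIn.zero
  | succ => exact Nat.RecursiveIn.succ
  | left => exact Nat.RecursiveIn.left
  | right => exact Nat.RecursiveIn.right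
  | oracle => exact Nat.RecursiveIn.oracle g rfl
  | pair a b iha ihb =>
    refine (Nat.RecursiveIn.pair iha ihb).of_eq fun n => ?_
    simp [OC.eval, Seq.seq]
  | comp a b iha ihb => exact Nat.RecursiveIn.comp iha ihb
  | prec a b iha ihb => exact Nat.RecursiveIn.prec iha ihb
  | rfind a iha => exact Nat.RecursiveIn.rfind iha

theorem exists_code {g f : ℕ →. ℕ} (h : Nat.RecursiveIn {g} f) : ∃ c : OC, c.eval g = f := by
  induction h with
  | zero => exact ⟨.zero, rfl⟩
  | succ => exact ⟨.succ, rfl⟩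
  | left => exact ⟨.left, rfl⟩
  | right => exact ⟨.right, rfl⟩
  | oracle g' hg' =>
    have : g' = g := by simpa using hg'
    subst this
    exact ⟨.oracle, rfl⟩
  | pair _ _ iha ihb =>
    obtain ⟨a, rfl⟩ := iha
    obtain ⟨b, rfl⟩ := ihb
    refine ⟨.pair a b, ?_⟩
    funext n
    simp [OC.eval, Seq.seq]
  | comp _ _ iha ihb =>
    obtain ⟨a, rfl⟩ := iha
    obtain ⟨b, rfl⟩ := ihb
    exact ⟨.comp a b, rfl⟩
  | prec _ _ iha ihb =>
    obtain ⟨a, rfl⟩ := iha
    obtain ⟨b, rfl⟩ := ihb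
    exact ⟨.prec a b, rfl⟩
  | rfind _ iha =>
    obtain ⟨a, rfl⟩ := iha
    exact ⟨.rfind a, rfl⟩

theorem mem_rfind_iff (q : ℕ → Part ℕ) (v : ℕ) :
    v ∈ Nat.rfind (fun n => (q n).map fun m => decide (m = 0)) ↔
      (∃ y ∈ q v, y = 0) ∧ ∀ m, m < v → ∃ y ∈ q m, y ≠ 0 := by
  refine (Nat.mem_rfind (p := fun n => (q n).map fun m => decide (m = 0)) (n := v)).trans ?_
  constructor
  · rintro ⟨h1, h2⟩
    refine ⟨?_, ?_⟩
    · obtain ⟨y, hy, hd⟩ := (Part.mem_map_iff _).1 h1
      exact ⟨y, hy, by simpa using hd⟩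
    · intro m hm
      obtain ⟨y, hy, hd⟩ := (Part.mem_map_iff _).1 (h2 hm)
      exact ⟨y, hy, by simpa using hd⟩
  · rintro ⟨⟨y, hy, hd⟩, h2⟩
    refine ⟨?_, ?_⟩
    · exact (Part.mem_map_iff _).2 ⟨y, hy, by simpa using hd⟩
    · intro m hm
      obtain ⟨y, hy, hd⟩ := h2 m hm
      exact (Part.mem_map_iff _).2 ⟨y, hy, by simpa using hd⟩

theorem precF_zero (f h : ℕ → Part ℕ) (x : ℕ) : precF f h x 0 = f x := rfl

theorem precF_succ (f h : ℕ → Part ℕ) (x n : ℕ) :
    precF f h x (n + 1) = (precF f h x n).bind fun i => h (Nat.pair x (Nat.pair n i)) := rfl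

theorem precF_mono {f f' h h' : ℕ → Part ℕ} (hf : ∀ n v, v ∈ f n → v ∈ f' n)
    (hh : ∀ n v, v ∈ h n → v ∈ h' n) (x : ℕ) :
    ∀ n v, v ∈ precF f h x n → v ∈ precF f' h' x n := by
  intro n
  induction n with
  | zero => intro v hv; exact hf x v hv
  | succ n ih =>
    intro v hv
    rw [precF_succ, Part.mem_bind_iff] at hv ⊢
    obtain ⟨y, hy, hv⟩ := hv
    exact ⟨y, ih y hy, hh _ _ hv⟩

theorem OC.eval_mono {g g' : ℕ → Part ℕ} (hg : ∀ n v, v ∈ g n → v ∈ g' n) (c : OC) :
    ∀ n v, v ∈ c.eval g n → v ∈ c.eval g' n := by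
  induction c with
  | zero => exact fun n v h => h
  | succ => exact fun n v h => h
  | left => exact fun n v h => h
  | right => exact fun n v h => h
  | oracle => exact hg
  | pair a b iha ihb =>
    intro n v hv
    simp only [OC.eval, Part.mem_bind_iff, Part.mem_map_iff] at hv ⊢
    obtain ⟨x, hx, y, hy, rfl⟩ := hv
    exact ⟨x, iha _ _ hx, y, ihb _ _ hy, rfl⟩
  | comp a b iha ihb =>
    intro n v hv
    simp only [OC.eval, Part.mem_bind_iff] at hv ⊢
    obtain ⟨y, hy, hv⟩ := hv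
    exact ⟨y, ihb _ _ hy, iha _ _ hv⟩
  | prec a b iha ihb =>
    intro n v hv
    simp only [OC.eval] at hv ⊢
    exact precF_mono iha ihb _ _ _ hv
  | rfind a iha =>
    intro x v hv
    simp only [OC.eval] at hv ⊢
    rw [mem_rfind_iff] at hv ⊢
    refine ⟨?_, ?_⟩
    · obtain ⟨y, hy, hd⟩ := hv.1
      exact ⟨y, iha _ _ hy, hd⟩
    · intro m hm
      obtain ⟨y, hy, hd⟩ := hv.2 m hm
      exact ⟨y, iha _ _ hy, hd⟩

/-- restriction of an oracle to arguments below `u` -/
def res (g : ℕ → Part ℕ) (u : ℕ) : ℕ → Part ℕ := fun i => if i < u then g i else Part.none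

theorem res_le (g : ℕ → Part ℕ) (u : ℕ) : ∀ n v, v ∈ res g u n → v ∈ g n := by
  intro n v hv
  unfold res at hv
  split_ifs at hv with h
  · exact hv
  · exact absurd hv (Part.notMem_none _)

theorem res_mono (g : ℕ → Part ℕ) {u u' : ℕ} (huu : u ≤ u') :
    ∀ n v, v ∈ res g u n → v ∈ res g u' n := by
  intro n v hv
  unfold res at hv ⊢
  split_ifs at hv with h
  · rw [if_pos (lt_of_lt_of_le h huu)]; exact hv
  · exact absurd hv (Part.notMem_none _)

theorem precF_use (g : ℕ → Part ℕ) (a b : OC)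
    (hf : ∀ n v, v ∈ a.eval g n → ∃ u, v ∈ a.eval (res g u) n)
    (hh : ∀ n v, v ∈ b.eval g n → ∃ u, v ∈ b.eval (res g u) n) (x : ℕ) :
    ∀ n v, v ∈ precF (a.eval g) (b.eval g) x n →
      ∃ u, v ∈ precF (a.eval (res g u)) (b.eval (res g u)) x n := by
  intro n
  induction n with
  | zero => intro v hv; exact hf x v hv
  | succ n ih =>
    intro v hv
    rw [precF_succ, Part.mem_bind_iff] at hv
    obtain ⟨y, hy, hv⟩ := hv
    obtain ⟨u₁, h₁⟩ := ih y hy
    obtain ⟨u₂, h₂⟩ := hh _ _ hv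
    refine ⟨max u₁ u₂, ?_⟩
    rw [precF_succ, Part.mem_bind_iff]
    refine ⟨y, ?_, ?_⟩
    · exact precF_mono (OC.eval_mono (res_mono g (le_max_left _ _)) a)
        (OC.eval_mono (res_mono g (le_max_left _ _)) b) _ _ _ h₁
    · exact OC.eval_mono (res_mono g (le_max_right _ _)) b _ _ h₂

theorem OC.eval_use (g : ℕ → Part ℕ) (c : OC) :
    ∀ n v, v ∈ c.eval g n → ∃ u, v ∈ c.eval (res g u) n := by
  induction c with
  | zero => exact fun n v h => ⟨0, h⟩
  | succ => exact fun n v h => ⟨0, h⟩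
  | left => exact fun n v h => ⟨0, h⟩
  | right => exact fun n v h => ⟨0, h⟩
  | oracle =>
    intro n v hv
    refine ⟨n + 1, ?_⟩
    simp only [OC.eval] at hv ⊢
    unfold res
    rw [if_pos (Nat.lt_succ_self n)]
    exact hv
  | pair a b iha ihb =>
    intro n v hv
    simp only [OC.eval, Part.mem_bind_iff, Part.mem_map_iff] at hv
    obtain ⟨x, hx, y, hy, rfl⟩ := hv
    obtain ⟨u₁, h₁⟩ := iha _ _ hx
    obtain ⟨u₂, h₂⟩ := ihb _ _ hy
    refine ⟨max u₁ u₂, ?_⟩
    simp only [OC.eval, Part.mem_bind_iff, Part.mem_map_iff]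
    exact ⟨x, OC.eval_mono (res_mono g (le_max_left _ _)) a _ _ h₁, y,
      OC.eval_mono (res_mono g (le_max_right _ _)) b _ _ h₂, rfl⟩
  | comp a b iha ihb =>
    intro n v hv
    simp only [OC.eval, Part.mem_bind_iff] at hv
    obtain ⟨y, hy, hv⟩ := hv
    obtain ⟨u₁, h₁⟩ := ihb _ _ hy
    obtain ⟨u₂, h₂⟩ := iha _ _ hv
    refine ⟨max u₁ u₂, ?_⟩
    simp only [OC.eval, Part.mem_bind_iff]
    exact ⟨y, OC.eval_mono (res_mono g (le_max_left _ _)) b _ _ h₁,
      OC.eval_mono (res_mono g (le_max_right _ _)) a _ _ h₂⟩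
  | prec a b iha ihb =>
    intro n v hv
    simp only [OC.eval] at hv ⊢
    exact precF_use g a b iha ihb _ _ _ hv
  | rfind a iha =>
    intro x v hv
    simp only [OC.eval] at hv
    rw [mem_rfind_iff] at hv
    have key : ∀ k, ∃ u, ∀ m, m < k → ∀ y, y ∈ a.eval g (Nat.pair x m) →
        y ∈ a.eval (res g u) (Nat.pair x m) := by
      intro k
      induction k with
      | zero => exact ⟨0, fun m hm => absurd hm (Nat.not_lt_zero m)⟩
      | succ k ih =>
        obtain ⟨u₁, h₁⟩ := ih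
        by_cases hex : ∃ y, y ∈ a.eval g (Nat.pair x k)
        · obtain ⟨y, hy⟩ := hex
          obtain ⟨u₂, h₂⟩ := iha _ _ hy
          refine ⟨max u₁ u₂, ?_⟩
          intro m hm y' hy'
          rcases Nat.lt_succ_iff_lt_or_eq.1 hm with hlt | rfl
          · exact OC.eval_mono (res_mono g (le_max_left _ _)) a _ _ (h₁ m hlt y' hy')
          · have : y' = y := Part.mem_unique hy' hy
            subst this
            exact OC.eval_mono (res_mono g (le_max_right _ _)) a _ _ h₂
        · refine ⟨u₁, ?_⟩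
          intro m hm y' hy'
          rcases Nat.lt_succ_iff_lt_or_eq.1 hm with hlt | rfl
          · exact h₁ m hlt y' hy'
          · exact absurd ⟨y', hy'⟩ hex
    obtain ⟨u, hu⟩ := key (v + 1)
    refine ⟨u, ?_⟩
    simp only [OC.eval]
    rw [mem_rfind_iff]
    refine ⟨?_, ?_⟩
    · obtain ⟨y, hy, hd⟩ := hv.1
      exact ⟨y, hu v (Nat.lt_succ_self v) y hy, hd⟩
    · intro m hm
      obtain ⟨y, hy, hd⟩ := hv.2 m hm
      exact ⟨y, hu m (Nat.lt_succ_of_lt hm) y hy, hd⟩

end Vale.Agent.Lib.P327
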