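import Vale.Agent.Lib.P327.Strings

/-!
From a partial recursive function on finite oracle strings to a Turing reduction
(in the sense of Mathlib's `Nat.RecursiveIn`), and basic reductions.
-/

namespace Vale.Agent.Lib.P327

open Part Nat.Partrec

/-- total functions recursive in an oracle set -/
def RecIn (O : Set (ℕ →. ℕ)) (f : ℕ → ℕ) : Prop := Nat.RecursiveIn O (fun n => Part.some (f n))

theorem recIn_of_computable {O : Set (ℕ →. ℕ)} {f : ℕ → ℕ} (hf : Computable f) : RecIn O f :=
  Nat.Partrec.recursiveIn (Partrec.nat_iff.1 hf.partrec)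

theorem recIn_comp {O : Set (ℕ →. ℕ)} {f g : ℕ → ℕ} (hf : RecIn O f) (hg : RecIn O g) :
    RecIn O (fun n => f (g n)) :=
  (Nat.RecursiveIn.comp hf hg).of_eq fun n => by simp

theorem recIn_pair {O : Set (ℕ →. ℕ)} {f g : ℕ → ℕ} (hf : RecIn O f) (hg : RecIn O g) :
    RecIn O (fun n => Nat.pair (f n) (g n)) :=
  (Nat.RecursiveIn.pair hf hg).of_eq fun n => by simp [Seq.seq]

theorem recIn_comp₂ {O : Set (ℕ →. ℕ)} {φ : ℕ → ℕ → ℕ} {f g : ℕ → ℕ} (hφ : Computable₂ φ)
    (hf : RecIn O f) (hg : RecIn O g) : RecIn O (fun n => φ (f n) (g n)) := by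
  have h1 : Computable (fun m : ℕ => φ (Nat.unpair m).1 (Nat.unpair m).2) :=
    hφ.comp (Computable.fst.comp Computable.unpair) (Computable.snd.comp Computable.unpair)
  have h2 := recIn_comp (recIn_of_computable (O := O) h1) (recIn_pair hf hg)
  refine Nat.RecursiveIn.of_eq h2 fun n => ?_
  simp

theorem recIn_prec {O : Set (ℕ →. ℕ)} {f h : ℕ → ℕ} (hf : RecIn O f) (hh : RecIn O h) :
    RecIn O (fun p => (Nat.unpair p).2.rec (f (Nat.unpair p).1)
      (fun y IH => h (Nat.pair (Nat.unpair p).1 (Nat.pair y IH)))) := by
  refine (Nat.RecursiveIn.prec hf hh).of_eq fun p => ?_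
  simp only []
  induction (Nat.unpair p).2 with
  | zero => rfl
  | succ n ih =>
    simp only [Part.bind_eq_bind] at ih ⊢
    rw [ih]
    simp

theorem recIn_chi (B : ℕ → Bool) : RecIn {chi B} (fun n => (B n).toNat) :=
  Nat.RecursiveIn.oracle (chi B) rfl

/-- reversed prefix -/
def rpre (B : ℕ → Bool) : ℕ → List Bool
  | 0 => []
  | u + 1 => B u :: rpre B u

theorem rpre_reverse (B : ℕ → Bool) (u : ℕ) : (rpre B u).reverse = pre B u := by
  induction u with
  | zero => rfl
  | succ u ih =>
    simp [rpre, ih, pre, List.range_succ]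

theorem encode_bool_toNat (b : Bool) : Encodable.encode b = b.toNat := by
  cases b <;> rfl

theorem recIn_rpre (B : ℕ → Bool) : RecIn {chi B} (fun u => Encodable.encode (rpre B u)) := by
  have hf : RecIn {chi B} (fun _ : ℕ => 0) := recIn_of_computable (Computable.const 0)
  have hh : RecIn {chi B} (fun m : ℕ =>
      Nat.succ (Nat.pair (B (Nat.unpair (Nat.unpair m).2).1).toNat (Nat.unpair (Nat.unpair m).2).2)) := by
    have hφ : Computable₂ (fun b i : ℕ => Nat.succ (Nat.pair b i)) :=
      (Computable.succ.comp (Primrec₂.natPair.to_comp.comp Computable.fst Computable.snd)).to₂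
    have h1 : RecIn {chi B} (fun m : ℕ => (B (Nat.unpair (Nat.unpair m).2).1).toNat) :=
      recIn_comp (recIn_chi B) (recIn_of_computable
        (Computable.fst.comp (Computable.unpair.comp (Computable.snd.comp Computable.unpair))))
    have h2 : RecIn {chi B} (fun m : ℕ => (Nat.unpair (Nat.unpair m).2).2) :=
      recIn_of_computable
        (Computable.snd.comp (Computable.unpair.comp (Computable.snd.comp Computable.unpair)))
    exact recIn_comp₂ hφ h1 h2
  have h3 := recIn_comp (recIn_prec hf hh)
    (recIn_of_computable (O := {chi B}) (f := fun u => Nat.pair 0 u)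
      (Primrec₂.natPair.to_comp.comp (Computable.const 0) Computable.id))
  refine Nat.RecursiveIn.of_eq h3 fun u => ?_
  congr 1
  simp only [Nat.unpair_pair]
  induction u with
  | zero => rfl
  | succ u ih =>
    simp only [rpre, Encodable.encode_list_cons, encode_bool_toNat]
    rw [← ih]

/-- Bounded evaluation of an ordinary code on a string given by the encoding of its reverse. -/
def evS (c₀ : Code) (x r : ℕ) : Option ℕ :=
  (Encodable.decode (α := List Bool) r).bind fun ρ =>
    Code.evaln (Nat.unpair (Nat.unpair x).2).2 c₀ (Encodable.encode (ρ.reverse, (Nat.unpair x).1))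

theorem evS_computable (c₀ : Code) : Computable₂ (evS c₀) := by
  have h1 : Computable (fun p : ℕ × ℕ => Encodable.decode (α := List Bool) p.2) :=
    Computable.decode.comp Computable.snd
  have h2 : Computable₂ (fun (p : ℕ × ℕ) (ρ : List Bool) =>
      Code.evaln (Nat.unpair (Nat.unpair p.1).2).2 c₀
        (Encodable.encode (ρ.reverse, (Nat.unpair p.1).1))) := by
    have h3 : Computable (fun q : (ℕ × ℕ) × List Bool =>
        (((Nat.unpair (Nat.unpair q.1.1).2).2, c₀),
          Encodable.encode (q.2.reverse, (Nat.unpair q.1.1).1))) := by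
      refine Computable.pair (Computable.pair ?_ (Computable.const c₀)) ?_
      · exact Computable.snd.comp (Computable.unpair.comp (Computable.snd.comp
          (Computable.unpair.comp (Computable.fst.comp Computable.fst))))
      · refine Computable.encode.comp (Computable.pair ?_ ?_)
        · exact Computable.list_reverse.comp Computable.snd
        · exact Computable.fst.comp (Computable.unpair.comp (Computable.fst.comp Computable.fst))
    exact (Code.primrec_evaln.to_comp.comp h3).to₂
  exact Computable.option_bind h1 h2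

theorem evS_rpre (c₀ : Code) (B : ℕ → Bool) (n u s : ℕ) :
    evS c₀ (Nat.pair n (Nat.pair u s)) (Encodable.encode (rpre B u)) =
      Code.evaln s c₀ (Encodable.encode (pre B u, n)) := by
  simp [evS, rpre_reverse]

/-- A partial recursive function on finite strings which is correct and defined along the
prefixes of `B` yields a Turing reduction to `B`. -/
theorem reducible_of_partrec (ψ : List Bool → ℕ → Part ℕ) (hψ : Partrec₂ ψ) (B X : ℕ → Bool)
    (h1 : ∀ n, ∃ u, (X n).toNat ∈ ψ (pre B u) n)
    (h2 : ∀ n u v, v ∈ ψ (pre B u) n → v = (X n).toNat) :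
    Nat.RecursiveIn {chi B} (chi X) := by
  obtain ⟨c₀, hc₀⟩ := Code.exists_code.1 hψ
  have hev : ∀ τ n, Code.eval c₀ (Encodable.encode (τ, n)) = ψ τ n := by
    intro τ n
    rw [hc₀]
    simp [Part.map_id']
  -- the index of the prefix used by a candidate
  have hR : RecIn {chi B} (fun x : ℕ =>
      Encodable.encode (rpre B (Nat.unpair (Nat.unpair x).2).1)) :=
    recIn_comp (recIn_rpre B) (recIn_of_computable
      (Computable.fst.comp (Computable.unpair.comp (Computable.snd.comp Computable.unpair))))
  have hid : RecIn {chi B} (fun x : ℕ => x) := recIn_of_computable Computable.id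
  -- test function
  have hQ : RecIn {chi B} (fun x : ℕ =>
      if (evS c₀ x (Encodable.encode (rpre B (Nat.unpair (Nat.unpair x).2).1))).isSome then 0
      else 1) := by
    have hφ : Computable₂ (fun x r : ℕ => if (evS c₀ x r).isSome then 0 else 1) := by
      have : Computable₂ (fun x r : ℕ => cond (evS c₀ x r).isSome 0 1) :=
        (Computable.cond (Primrec.option_isSome.to_comp.comp (evS_computable c₀))
          (Computable.const 0) (Computable.const 1)).to₂
      refine this.of_eq fun p => ?_
      simp only [Bool.cond_eq_ite]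
    exact recIn_comp₂ hφ hid hR
  -- value function
  have hV : RecIn {chi B} (fun x : ℕ =>
      (evS c₀ x (Encodable.encode (rpre B (Nat.unpair (Nat.unpair x).2).1))).getD 0) := by
    have hφ : Computable₂ (fun x r : ℕ => (evS c₀ x r).getD 0) :=
      (Computable.option_getD (evS_computable c₀) (Computable.const 0)).to₂
    exact recIn_comp₂ hφ hid hR
  have hS := Nat.RecursiveIn.rfind hQ
  have hfin := Nat.RecursiveIn.comp hV (Nat.RecursiveIn.pair hid hS)
  refine Nat.RecursiveIn.of_eq hfin fun n => ?_
  -- correctness
  obtain ⟨u, hu⟩ := h1 n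
  rw [← hev] at hu
  obtain ⟨s, hs⟩ := Code.evaln_complete.1 hu
  set p : ℕ → Bool := fun m =>
    decide ((if (evS c₀ (Nat.pair n m)
      (Encodable.encode (rpre B (Nat.unpair (Nat.unpair (Nat.pair n m)).2).1))).isSome
        then 0 else 1) = 0) with hp
  have hpm : p (Nat.pair u s) = true := by
    have this : (Code.evaln s c₀ (Encodable.encode (pre B u, n))).isSome = true := by
      rw [Option.mem_def.1 hs]; rfl
    have e1 : evS c₀ (Nat.pair n (Nat.pair u s))
        (Encodable.encode (rpre B (Nat.unpair (Nat.unpair (Nat.pair n (Nat.pair u s))).2).1)) =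
        Code.evaln s c₀ (Encodable.encode (pre B u, n)) := by
      rw [Nat.unpair_pair, Nat.unpair_pair]
      exact evS_rpre c₀ B n u s
    show decide ((if (evS c₀ (Nat.pair n (Nat.pair u s))
      (Encodable.encode (rpre B (Nat.unpair (Nat.unpair (Nat.pair n (Nat.pair u s))).2).1))).isSome
        = true then 0 else 1) = 0) = true
    rw [e1, this]
    rfl
  obtain ⟨m, hm, -⟩ := Nat.rfind_min' (p := p) hpm
  have hpm' : p m = true := by
    have := Nat.rfind_spec hm
    simpa using this
  have hS' : (Nat.rfind fun k => (fun m => decide (m = 0)) <$>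
      (Part.some (if (evS c₀ (Nat.pair n k)
        (Encodable.encode (rpre B (Nat.unpair (Nat.unpair (Nat.pair n k)).2).1))).isSome
          then 0 else 1) : Part ℕ)) = Part.some m := by
    have : (fun k => (fun m => decide (m = 0)) <$>
      (Part.some (if (evS c₀ (Nat.pair n k)
        (Encodable.encode (rpre B (Nat.unpair (Nat.unpair (Nat.pair n k)).2).1))).isSome
          then 0 else 1) : Part ℕ)) = (fun k => Part.some (p k)) := by
      funext k
      simp [hp]
    rw [this]
    exact Part.eq_some_iff.2 hm
  simp only [hS']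
  simp only [Seq.seq, Part.map_eq_map, Part.map_some, Part.bind_eq_bind, Part.bind_some,
    Nat.unpair_pair, chi]
  congr 1
  -- the value found is correct
  have hsome : (evS c₀ (Nat.pair n m)
      (Encodable.encode (rpre B (Nat.unpair m).1))).isSome = true := by
    by_contra hcon
    simp only [hp, Nat.unpair_pair] at hpm'
    simp [hcon] at hpm'
  obtain ⟨v, hv⟩ := Option.isSome_iff_exists.1 hsome
  rw [hv]
  have hv2 : Code.evaln (Nat.unpair m).2 c₀ (Encodable.encode (pre B (Nat.unpair m).1, n))
      = Option.some v := by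
    rw [← evS_rpre, Nat.pair_unpair]
    exact hv
  have hv' : v ∈ ψ (pre B (Nat.unpair m).1) n := by
    rw [← hev]
    exact Code.evaln_sound (Option.mem_def.2 hv2)
  simp [h2 n _ v hv']

end Vale.Agent.Lib.P327
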