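import Vale.Agent.Lib.P327.OCode

/-!
Finite oracle strings: evaluation of an oracle code on a finite string is partial recursive,
and evaluation on a total oracle is determined by evaluation on its finite prefixes.
-/

namespace Vale.Agent.Lib.P327

open Part

/-- characteristic function of a real, as a total oracle -/
def chi (B : ℕ → Bool) : ℕ → Part ℕ := fun n => Part.some (B n).toNat

/-- prefix of length `u` of a real -/
def pre (B : ℕ → Bool) (u : ℕ) : List Bool := (List.range u).map B

/-- finite oracle given by a string -/
def sOr (τ : List Bool) : ℕ → Part ℕ := fun i => ((τ[i]?).map Bool.toNat : Option ℕ)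

@[simp] theorem pre_length (B : ℕ → Bool) (u : ℕ) : (pre B u).length = u := by
  simp [pre]

theorem pre_getElem? (B : ℕ → Bool) (u i : ℕ) :
    (pre B u)[i]? = if i < u then Option.some (B i) else Option.none := by
  unfold pre
  by_cases h : i < u
  · simp [h]
  · simp [h]

theorem sOr_pre (B : ℕ → Bool) (u : ℕ) : sOr (pre B u) = res (chi B) u := by
  funext i
  unfold sOr res chi
  rw [pre_getElem?]
  by_cases h : i < u
  · simp [h]
  · simp [h]

theorem eval_chi_iff (c : OC) (B : ℕ → Bool) (n v : ℕ) :
    v ∈ c.eval (chi B) n ↔ ∃ u, v ∈ c.eval (sOr (pre B u)) n := by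
  constructor
  · intro h
    obtain ⟨u, hu⟩ := OC.eval_use (chi B) c n v h
    exact ⟨u, by rw [sOr_pre]; exact hu⟩
  · rintro ⟨u, hu⟩
    rw [sOr_pre] at hu
    exact OC.eval_mono (res_le (chi B) u) c n v hu

theorem eval_pre_mono (c : OC) (B : ℕ → Bool) {u u' : ℕ} (h : u ≤ u') (n v : ℕ)
    (hv : v ∈ c.eval (sOr (pre B u)) n) : v ∈ c.eval (sOr (pre B u')) n := by
  rw [sOr_pre] at hv ⊢
  exact OC.eval_mono (res_mono (chi B) h) c n v hv

theorem sOr_computable : Computable₂ (fun (τ : List Bool) (i : ℕ) => (τ[i]?).map Bool.toNat) := by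
  have h1 : Computable₂ (fun (τ : List Bool) (i : ℕ) => τ[i]?) := Computable.list_getElem?
  have h2 : Computable (fun b : Bool => b.toNat) :=
    (Primrec.dom_bool (fun b : Bool => b.toNat)).to_comp
  exact Computable.option_map h1 (h2.comp Computable.snd).to₂

theorem OC.eval_sOr_partrec (c : OC) :
    Partrec₂ (fun (τ : List Bool) (n : ℕ) => c.eval (sOr τ) n) := by
  induction c with
  | zero => exact (Computable.const 0).partrec
  | succ => exact (Computable.succ.comp Computable.snd).partrec
  | left => exact (Computable.fst.comp (Computable.unpair.comp Computable.snd)).partrec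
  | right => exact (Computable.snd.comp (Computable.unpair.comp Computable.snd)).partrec
  | oracle => exact Computable.ofOption sOr_computable
  | pair a b iha ihb =>
    have h1 : Partrec₂ (fun (p : List Bool × ℕ) (x : ℕ) =>
        (b.eval (sOr p.1) p.2).map fun y => Nat.pair x y) := by
      have h2 : Partrec (fun q : (List Bool × ℕ) × ℕ => b.eval (sOr q.1.1) q.1.2) :=
        Partrec₂.comp ihb (Computable.fst.comp Computable.fst) (Computable.snd.comp Computable.fst)
      have h3 : Computable₂ (fun (q : (List Bool × ℕ) × ℕ) (y : ℕ) => Nat.pair q.2 y) :=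
        (Primrec₂.natPair.to_comp.comp (Computable.snd.comp Computable.fst) Computable.snd).to₂
      exact Partrec.map h2 h3
    have h : Partrec (fun p : List Bool × ℕ =>
        (a.eval (sOr p.1) p.2).bind fun x => (b.eval (sOr p.1) p.2).map fun y => Nat.pair x y) :=
      Partrec.bind iha h1
    exact h
  | comp a b iha ihb =>
    have h1 : Partrec₂ (fun (p : List Bool × ℕ) (y : ℕ) => a.eval (sOr p.1) y) := by
      have h2 : Partrec (fun q : (List Bool × ℕ) × ℕ => a.eval (sOr q.1.1) q.2) :=
        Partrec₂.comp iha (Computable.fst.comp Computable.fst) Computable.snd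
      exact h2
    have h : Partrec (fun p : List Bool × ℕ =>
        (b.eval (sOr p.1) p.2).bind fun y => a.eval (sOr p.1) y) :=
      Partrec.bind ihb h1
    exact h
  | prec a b iha ihb =>
    have hf : Computable (fun p : List Bool × ℕ => (Nat.unpair p.2).2) :=
      Computable.snd.comp (Computable.unpair.comp Computable.snd)
    have hg : Partrec (fun p : List Bool × ℕ => a.eval (sOr p.1) (Nat.unpair p.2).1) :=
      Partrec₂.comp iha Computable.fst
        (Computable.fst.comp (Computable.unpair.comp Computable.snd))
    have hh : Partrec₂ (fun (p : List Bool × ℕ) (q : ℕ × ℕ) =>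
        b.eval (sOr p.1) (Nat.pair (Nat.unpair p.2).1 (Nat.pair q.1 q.2))) := by
      have h2 : Partrec (fun r : (List Bool × ℕ) × (ℕ × ℕ) =>
          b.eval (sOr r.1.1) (Nat.pair (Nat.unpair r.1.2).1 (Nat.pair r.2.1 r.2.2))) := by
        refine Partrec₂.comp ihb (Computable.fst.comp Computable.fst) ?_
        exact Primrec₂.natPair.to_comp.comp
          (Computable.fst.comp (Computable.unpair.comp (Computable.snd.comp Computable.fst)))
          (Primrec₂.natPair.to_comp.comp (Computable.fst.comp Computable.snd)
            (Computable.snd.comp Computable.snd))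
      exact h2
    have h := Partrec.nat_rec hf hg hh
    exact h
  | rfind a iha =>
    have h1 : Partrec₂ (fun (p : List Bool × ℕ) (n : ℕ) =>
        (a.eval (sOr p.1) (Nat.pair p.2 n)).map fun m => decide (m = 0)) := by
      have h2 : Partrec (fun q : (List Bool × ℕ) × ℕ => a.eval (sOr q.1.1) (Nat.pair q.1.2 q.2)) :=
        Partrec₂.comp iha (Computable.fst.comp Computable.fst)
          (Primrec₂.natPair.to_comp.comp (Computable.snd.comp Computable.fst) Computable.snd)
      have h3 : Computable (fun m : ℕ => decide (m = 0)) :=
        (Primrec.eq.comp Primrec.id (Primrec.const 0)).decide.to_comp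
      exact Partrec.map h2 (h3.comp Computable.snd).to₂
    have h := Partrec.rfind h1
    exact h

end Vale.Agent.Lib.P327
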