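import Vale.Agent.Lib.P327.Reduce

/-!
Weak functionals: partial recursive functions on finite strings that are correct wherever
defined and defined on a dense set.  Baire category gives such a functional locally for every
continuous degree-nonincreasing map, and uniform tail dependence makes it global.
-/

namespace Vale.Agent.Lib.P327

open Part Nat.Partrec

/-- cylinder of reals agreeing with `B` below `u` -/
def cyl (B : ℕ → Bool) (u : ℕ) : Set (ℕ → Bool) := {B' | ∀ i, i < u → B' i = B i}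

theorem mem_cyl_self (B : ℕ → Bool) (u : ℕ) : B ∈ cyl B u := fun _ _ => rfl

theorem isOpen_cyl (B : ℕ → Bool) (u : ℕ) : IsOpen (cyl B u) := by
  have : cyl B u = ⋂ i ∈ (Finset.range u : Set ℕ), (fun B' : ℕ → Bool => B' i) ⁻¹' {B i} := by
    ext B'
    simp [cyl]
  rw [this]
  exact Set.Finite.isOpen_biInter (Finset.finite_toSet _)
    fun i _ => (isOpen_discrete _).preimage (continuous_apply i)

theorem exists_cyl_subset {V : Set (ℕ → Bool)} (hV : IsOpen V) {B : ℕ → Bool} (hB : B ∈ V) :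
    ∃ u, cyl B u ⊆ V := by
  obtain ⟨I, t, ht, hsub⟩ := isOpen_pi_iff.1 hV B hB
  refine ⟨I.sup id + 1, fun B' hB' => hsub ?_⟩
  intro i hi
  have hlt : i < I.sup id + 1 := Nat.lt_succ_of_le (Finset.le_sup (f := id) hi)
  rw [hB' i hlt]
  exact (ht i hi).2

theorem cyl_mono (B : ℕ → Bool) {u u' : ℕ} (h : u ≤ u') : cyl B u' ⊆ cyl B u :=
  fun _ hB' i hi => hB' i (lt_of_lt_of_le hi h)

theorem pre_eq_of_mem_cyl {B B' : ℕ → Bool} {u : ℕ} (h : B' ∈ cyl B u) : pre B' u = pre B u := by
  unfold pre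
  apply List.map_congr_left
  intro i hi
  exact h i (List.mem_range.1 hi)

theorem pre_take (B : ℕ → Bool) (U u : ℕ) : (pre B U).take u = pre B (min u U) := by
  unfold pre
  rw [← List.map_take, List.take_range]

/-- real obtained from `B₀` below `L` and from `B` from `L` on -/
def splice (B₀ B : ℕ → Bool) (L : ℕ) : ℕ → Bool := fun i => if i < L then B₀ i else B i

theorem pre_splice (B₀ B : ℕ → Bool) (L u : ℕ) (hu : L ≤ u) :
    pre B₀ L ++ (pre B u).drop L = pre (splice B₀ B L) u := by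
  apply List.ext_getElem?
  intro i
  rw [pre_getElem?]
  by_cases hi : i < L
  · rw [List.getElem?_append_left (by simpa using hi), pre_getElem?]
    simp [hi, lt_of_lt_of_le hi hu, splice]
  · rw [List.getElem?_append_right (by simpa using hi)]
    simp only [pre_length, List.getElem?_drop]
    rw [pre_getElem?]
    have e : L + (i - L) = i := by omega
    rw [e]
    simp [hi, splice]

/-- weak functional for a map `K` on Cantor space -/
structure IsWeak (ψ : List Bool → ℕ → Part ℕ) (K : (ℕ → Bool) → (ℕ → Bool)) : Prop where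
  partrec : Partrec₂ ψ
  correct : ∀ B u n v, v ∈ ψ (pre B u) n → v = (K B n).toNat
  dense : ∀ n, Dense {B | ∃ u, (ψ (pre B u) n).Dom}

/-- monotone weak functional -/
structure IsWeakM (ψ : List Bool → ℕ → Part ℕ) (K : (ℕ → Bool) → (ℕ → Bool)) : Prop
    extends IsWeak ψ K where
  mono : ∀ B u u' n, u ≤ u' → (ψ (pre B u) n).Dom → (ψ (pre B u') n).Dom

theorem code_of_partrec₂ {ψ : List Bool → ℕ → Part ℕ} (hψ : Partrec₂ ψ) :
    ∃ c₀ : Code, ∀ τ n, Code.eval c₀ (Encodable.encode (τ, n)) = ψ τ n := by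
  obtain ⟨c₀, hc₀⟩ := Code.exists_code.1 hψ
  refine ⟨c₀, fun τ n => ?_⟩
  rw [hc₀]
  simp [Part.map_id']

theorem evaln_take_computable (c₀ : Code) :
    Computable₂ (fun (p : List Bool × ℕ) (m : ℕ) =>
      Code.evaln (Nat.unpair m).2 c₀ (Encodable.encode (p.1.take (Nat.unpair m).1, p.2))) := by
  have h3 : Computable (fun q : (List Bool × ℕ) × ℕ =>
      (((Nat.unpair q.2).2, c₀), Encodable.encode (q.1.1.take (Nat.unpair q.2).1, q.1.2))) := by
    refine Computable.pair (Computable.pair ?_ (Computable.const c₀)) ?_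
    · exact Computable.snd.comp (Computable.unpair.comp Computable.snd)
    · refine Computable.encode.comp (Computable.pair ?_ ?_)
      · exact (Primrec.list_take.to_comp).comp
          (Computable.fst.comp (Computable.unpair.comp Computable.snd))
          (Computable.fst.comp Computable.fst)
      · exact Computable.snd.comp Computable.fst
  exact (Code.primrec_evaln.to_comp.comp h3).to₂

theorem IsWeak.exists_mono {ψ : List Bool → ℕ → Part ℕ} {K : (ℕ → Bool) → (ℕ → Bool)}
    (h : IsWeak ψ K) : ∃ ψ', IsWeakM ψ' K := by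
  obtain ⟨c₀, hc₀⟩ := code_of_partrec₂ h.partrec
  refine ⟨fun τ n => Nat.rfindOpt fun m =>
    Code.evaln (Nat.unpair m).2 c₀ (Encodable.encode (τ.take (Nat.unpair m).1, n)), ?_⟩
  refine ⟨⟨?_, ?_, ?_⟩, ?_⟩
  · exact Partrec.rfindOpt (evaln_take_computable c₀)
  · intro B u n v hv
    obtain ⟨m, hm⟩ := Nat.rfindOpt_spec hv
    have h1 := Code.evaln_sound hm
    rw [hc₀, pre_take] at h1
    exact h.correct B _ n v h1
  · intro n
    refine (h.dense n).mono ?_
    rintro B ⟨u, hu⟩
    refine ⟨u, ?_⟩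
    obtain ⟨v, hv⟩ := Part.dom_iff_mem.1 hu
    rw [← hc₀] at hv
    obtain ⟨s, hs⟩ := Code.evaln_complete.1 hv
    rw [Nat.rfindOpt_dom]
    refine ⟨Nat.pair u s, v, ?_⟩
    simp only [Nat.unpair_pair]
    rw [pre_take, min_self]
    exact hs
  · intro B u u' n huu hd
    rw [Nat.rfindOpt_dom] at hd ⊢
    obtain ⟨m, v, hm⟩ := hd
    refine ⟨Nat.pair (min (Nat.unpair m).1 u) (Nat.unpair m).2, v, ?_⟩
    simp only [Nat.unpair_pair]
    rw [pre_take] at hm ⊢
    have e : min (min (Nat.unpair m).1 u) u' = min (Nat.unpair m).1 u := by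
      rw [min_assoc, min_eq_left huu]
    rw [e]
    exact hm

/-- Baire category: a continuous map with `K B ≤ B` for every `B` is computed on a dense
subset of some cylinder by one code, which is correct on the whole cylinder where defined. -/
theorem exists_local_code (K : (ℕ → Bool) → (ℕ → Bool)) (hK : Continuous K)
    (hred : ∀ B, Nat.RecursiveIn {chi B} (chi (K B))) :
    ∃ (c : OC) (B₀ : ℕ → Bool) (L : ℕ),
      (∀ B ∈ cyl B₀ L, ∀ n v, v ∈ c.eval (chi B) n → v = (K B n).toNat) ∧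
      (∀ V : Set (ℕ → Bool), IsOpen V → (V ∩ cyl B₀ L).Nonempty →
        ∃ B ∈ V ∩ cyl B₀ L, ∀ n, (K B n).toNat ∈ c.eval (chi B) n) := by
  set C : OC → Set (ℕ → Bool) := fun c => {B | c.eval (chi B) = chi (K B)} with hC
  have hcover : ⋃ c, closure (C c) = Set.univ := by
    apply Set.eq_univ_of_forall
    intro B
    obtain ⟨c, hc⟩ := exists_code (hred B)
    exact Set.mem_iUnion.2 ⟨c, subset_closure hc⟩
  obtain ⟨c, B₀, hB₀⟩ := nonempty_interior_of_iUnion_of_closed (fun c => isClosed_closure) hcover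
  obtain ⟨L, hL⟩ := exists_cyl_subset isOpen_interior hB₀
  have hsub : cyl B₀ L ⊆ closure (C c) := hL.trans interior_subset
  have hdense : ∀ V : Set (ℕ → Bool), IsOpen V → (V ∩ cyl B₀ L).Nonempty →
      ∃ B ∈ V ∩ cyl B₀ L, ∀ n, (K B n).toNat ∈ c.eval (chi B) n := by
    intro V hV ⟨B₁, hB₁V, hB₁c⟩
    have h1 : B₁ ∈ closure (C c) := hsub hB₁c
    obtain ⟨B, hB, hBC⟩ := mem_closure_iff.1 h1 (V ∩ cyl B₀ L) (hV.inter (isOpen_cyl B₀ L))
      ⟨hB₁V, hB₁c⟩
    refine ⟨B, hB, fun n => ?_⟩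
    have : c.eval (chi B) = chi (K B) := hBC
    rw [this]
    exact Part.mem_some _
  refine ⟨c, B₀, L, ?_, hdense⟩
  intro B hB n v hv
  obtain ⟨u, hu⟩ := (eval_chi_iff c B n v).1 hv
  have hopen : IsOpen (cyl B u ∩ (fun B' : ℕ → Bool => K B' n) ⁻¹' {K B n}) :=
    (isOpen_cyl B u).inter ((isOpen_discrete _).preimage ((continuous_apply n).comp hK))
  obtain ⟨B', ⟨⟨hB'1, hB'2⟩, hB'3⟩, hB'4⟩ := hdense _ hopen ⟨B, ⟨mem_cyl_self B u, rfl⟩, hB⟩
  have h2 : v ∈ c.eval (chi B') n := by
    rw [eval_chi_iff]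
    exact ⟨u, by rw [pre_eq_of_mem_cyl hB'1]; exact hu⟩
  have h3 : v = (K B' n).toNat := Part.mem_unique h2 (hB'4 n)
  rw [h3]
  have : K B' n = K B n := hB'2
  rw [this]

end Vale.Agent.Lib.P327
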